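import Vale.Agent.P261.M.FracTop
import Vale.Agent.P261.H273.Glue2

/-!
# P261 (second hand-in): the homotopy of `L_m (S/p)` is countable, statement layer
-/

open CategoryTheory MonoidalCategory Limits Pretriangulated MonObj

set_option linter.unusedSectionVars false

namespace Vale.Agent.P261.M

open Vale.Agent.P251 Vale.Agent.P251.T Vale.Agent.P251.S Vale.Agent.P251.I Vale.Agent.P251.M
open Vale.Agent.P251.St Vale.Agent.P251.St.SHCat Vale.Agent.P261 Vale.Agent.P261.H621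
open Vale.Agent.P261.H273

variable {T : SHCat}

/-- `E` of the class of `K(0) ∨ ⋯ ∨ K(m-1)` has, on `p`-nilpotent objects, the acyclics of the Koszul
objects of heights `1, …, m - 1`. -/
theorem eHt_of_classE (S : Susp T) {p m : ℕ} [Fact p.Prime] (hp : p ≠ 2)
    {D : MUData T.C} (H : MUUniv (M.lineIso S.toSpaceFunctor) D)
    (K : ℕ → RingSp T) (hK : ∀ i < m, St.IsMorava S (K i) p i) {E : T.C} (hE : St.IsClassE m K E)
    {C : T.C} {a : 𝟙_ T.C ⟶ C} {b : C ⟶ (𝟙_ T.C)⟦(1 : ℤ)⟧}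
    (hC : Triangle.mk ((p : ℤ) • 𝟙 (𝟙_ T.C)) a b ∈ distTriang T.C)
    (Kf : KosFam D.P (p : ℤ) (D.vs p)) : EHt Kf (m - 1) E where
  acyclic_K W hW i h1 h2 :=
    (acyclic_morava_iff S hp H hC h1 (hK i (by omega)) (Kf.at_ i) W).1
      (acyclic_of_classE hE hW (by omega))
  acyclic W hpW h := by
    rcases Nat.eq_zero_or_pos m with rfl | hm
    · exact (stAcyclic_iff _ _).1 ((hE W).2 fun i hi => absurd hi (Nat.not_lt_zero i))
    · refine classE_of_acyclic S (n := m - 1) (fun i hi => hK i (by omega)) hE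
        (Fact.out : p.Prime).ne_zero hpW fun j hj hjm => ?_
      exact (acyclic_morava_iff S hp H hC hj (hK j hjm) (Kf.at_ j) W).2 (h j hj (by omega))

/-- **The homotopy groups of `L_{m-1} (S/p)` are countable.** -/
theorem countable_of_classE (S : Susp T) {p m : ℕ} [Fact p.Prime] (hp : p ≠ 2)
    (hd : ∀ j, 1 ≤ j → j < m → ¬ (p - 1) ∣ j)
    (hMU : ∃ D : MUData T.C, MUUniv (M.lineIso S.toSpaceFunctor) D ∧ JCells D.R)
    (hBC : ∀ (D : MUData T.C) (U : UnitCof D.R), JCells D.R → BCells U)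
    (K : ℕ → RingSp T) (hK : ∀ i < m, St.IsMorava S (K i) p i) {E : T.C} (hE : St.IsClassE m K E)
    {C : T.C} {a : Hom T.one C} {b : Hom C (sus T.one)}
    (hab : Dist (zmul (p : ℤ) (ident T.one)) a b) {Y : T.C} (y : Hom C Y) (hy : St.IsLoc E y)
    (t : ℤ) : Countable (Hom (sphere T t) Y) := by
  have := locallySmall_self.{0} T.C
  have hab' : Triangle.mk ((p : ℤ) • 𝟙 (𝟙_ T.C)) a b ∈ distTriang T.C := hab
  obtain ⟨D, H, hJ⟩ := hMU
  obtain ⟨Kf⟩ := exists_kosFam D.P (p : ℤ) (D.vs p)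
  obtain ⟨U⟩ := exists_unitCof D.R
  obtain ⟨FE⟩ := Vale.Agent.P251.Z.nonempty_locFunctor' E
  have h1 := (top_ctH D hab' hp U (hBC D U hJ) Kf (m := m - 1)
    (fun j h1 h2 => hd j h1 (by omega)) FE (eHt_of_classE S hp H K hK hE hab' Kf)).1
  obtain ⟨g⟩ := exists_iso_of_isLoc FE (fun _ h => h) (fun _ h => h) ((isLoc_iff E y).1 hy)
  have h2 : CtH Y := ctH_of_iso (FE.L.mapIso (λ_ C) ≪≫ g) h1
  exact h2 t

end Vale.Agent.P261.M
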