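import Vale.Agent.P251.F.LawHom
import Vale.Agent.P251.S.LimComplex

/-!
# P261: the law rings `v_h⁻¹ Laz/((m) + I_h^j)`

`m` a natural number (in the application a power of `p`); for `m = p` these are the rings
`NN p h j` of P251.
-/

namespace Vale.Agent.P261.M

open Vale.Agent.P217 Vale.Agent.P251.F LawRing Vale.Agent.P251.S

variable (m p h j : ℕ)

/-- The ideal `(m) + I_h^j` of `Laz`. -/
noncomputable def IJm : Ideal Laz := Ideal.span {(m : Laz)} ⊔ Laz.I p h ^ j

theorem IJm_vanish_iff {B : Type} [CommRing B] (x : Laz →+* B) :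
    (∀ a ∈ IJm m p h j, x a = 0) ↔
      ((m : B) = 0 ∧ Ih p h (Laz.univ.map x) ^ j = ⊥) := by
  have h1 : (∀ a ∈ IJm m p h j, x a = 0) ↔ IJm m p h j ≤ RingHom.ker x := Iff.rfl
  have h2 : Laz.I p h ^ j ≤ RingHom.ker x ↔ Ih p h (Laz.univ.map x) ^ j = ⊥ := by
    rw [← Laz.I_map, ← Ideal.map_pow, Ideal.map_eq_bot_iff_le_ker]
  rw [h1, IJm, sup_le_iff, h2, Ideal.span_singleton_le_iff_mem, RingHom.mem_ker, map_natCast]

theorem invariant_IJm [Fact p.Prime] : LawRing.Invariant (IJm m p h j) := by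
  intro B _ f x hx
  rw [IJm_vanish_iff] at hx ⊢
  refine ⟨hx.1, ?_⟩
  have : Laz.univ.map (act f x) = f • Laz.univ.map x := law_act f x
  rw [this, Ih_smul, hx.2]

/-- `Laz/((m) + I_h^j)`. -/
abbrev QNm : Type := Laz ⧸ IJm m p h j

/-- `v_h⁻¹ Laz/((m) + I_h^j)`. -/
abbrev NNm : Type := Localization.Away (Ideal.Quotient.mk (IJm m p h j) (Laz.v p h))

noncomputable instance instLawRingQNm [Fact p.Prime] : LawRing (QNm m p h j) :=
  LawRing.quotient _ (invariant_IJm m p h j)

theorem isUnit_act_vm [Fact p.Prime] (B : Type) [CommRing B] (f : InvSeries B)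
    (x : QNm m p h j →+* B) (hx : IsUnit (x (Ideal.Quotient.mk (IJm m p h j) (Laz.v p h)))) :
    IsUnit (act f x (Ideal.Quotient.mk (IJm m p h j) (Laz.v p h))) := by
  have h0 := (IJm_vanish_iff m p h j (x.comp (Ideal.Quotient.mk (IJm m p h j)))).1
    (fun a ha => by rw [RingHom.comp_apply, Ideal.Quotient.eq_zero_iff_mem.2 ha, map_zero])
  have h1 : (act f x).comp (Ideal.Quotient.mk (IJm m p h j)) =
      Laz.lift (f • Laz.univ.map (x.comp (Ideal.Quotient.mk (IJm m p h j)))) := rfl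
  rw [← RingHom.comp_apply, h1, Laz.lift_v]
  rw [← RingHom.comp_apply, Laz.map_v] at hx
  exact isUnit_vv_smul p h j _ f h0.2 hx

noncomputable instance instLawRingNNm [Fact p.Prime] : LawRing (NNm m p h j) :=
  LawRing.away _ (isUnit_act_vm m p h j)

section

variable [Fact p.Prime]

theorem epi_QNm : LawRing.Epi (QNm m p h j) :=
  LawRing.epi_quotient LawRing.epi_laz _ (invariant_IJm m p h j)

theorem epi_NNm : LawRing.Epi (NNm m p h j) :=
  LawRing.epi_away (epi_QNm m p h j) _ (isUnit_act_vm m p h j)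

omit [Fact p.Prime] in
theorem m_eq_zero_QNm : (m : QNm m p h j) = 0 := by
  have : Ideal.Quotient.mk (IJm m p h j) (m : Laz) = 0 :=
    Ideal.Quotient.eq_zero_iff_mem.2 (Ideal.mem_sup_left (Ideal.mem_span_singleton_self _))
  rwa [map_natCast] at this

omit [Fact p.Prime] in
theorem m_eq_zero_NNm : (m : NNm m p h j) = 0 := by
  have h2 := congrArg (algebraMap (QNm m p h j) (NNm m p h j)) (m_eq_zero_QNm m p h j)
  rwa [map_natCast, map_zero] at h2

end

section red

variable {j}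

theorem IJm_anti {j' : ℕ} (hj : j ≤ j') : IJm m p h j' ≤ IJm m p h j :=
  sup_le_sup_left (Ideal.pow_le_pow_right hj) _

/-- The transition map `Laz/((m) + I_h^{j'}) → Laz/((m) + I_h^j)`. -/
noncomputable def QNm.red {j' : ℕ} (hj : j ≤ j') : QNm m p h j' →+* QNm m p h j :=
  Ideal.Quotient.factor (IJm_anti m p h hj)

variable [Fact p.Prime]

/-- The transition map `v_h⁻¹ Laz/((m) + I_h^{j'}) → v_h⁻¹ Laz/((m) + I_h^j)`. -/
noncomputable def NNm.red {j' : ℕ} (hj : j ≤ j') : NNm m p h j' →+* NNm m p h j :=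
  IsLocalization.Away.lift (S := NNm m p h j') (Ideal.Quotient.mk (IJm m p h j') (Laz.v p h))
    (g := (algebraMap (QNm m p h j) (NNm m p h j)).comp (QNm.red m p h hj)) (by
      change IsUnit (algebraMap (QNm m p h j) (NNm m p h j)
        (Ideal.Quotient.mk (IJm m p h j) (Laz.v p h)))
      exact IsLocalization.Away.algebraMap_isUnit _)

theorem isLawHom_QNm_red {j' : ℕ} (hj : j ≤ j') : IsLawHom (QNm.red m p h hj) :=
  IsLawHom.of_epi (epi_QNm m p h j') (by
    change (Laz.univ.map _).map _ = Laz.univ.map _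
    rw [Law.map_map]
    rfl)

theorem isLawHom_NNm_red {j' : ℕ} (hj : j ≤ j') : IsLawHom (NNm.red m p h hj) :=
  IsLawHom.of_epi (epi_NNm m p h j') (by
    change ((Laz.univ.map _).map _).map _ = (Laz.univ.map _).map _
    rw [Law.map_map, NNm.red, IsLocalization.Away.lift_comp, Law.map_map, Law.map_map]
    rfl)

end red

/-- The tower `j ↦ C^s(v_h⁻¹ Laz/((m) + I_h^{j+1}))_w` of cochain complexes. -/
noncomputable def towerNm [Fact p.Prime] (w : ℤ) : TowerCx.{0} where
  C s j := Cob.wt (NNm m p h (j + 1)) s w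
  d s j := ((Cob.d s).comp (Cob.wt (NNm m p h (j + 1)) s w).subtype).codRestrict
    (Cob.wt (NNm m p h (j + 1)) (s + 1) w) fun x => Cob.IsWt.d x.2
  r s j := (((Cob.mapRing (NNm.red m p h (Nat.le_succ (j + 1))) s).toAddMonoidHom).comp
    (Cob.wt (NNm m p h (j + 2)) s w).subtype).codRestrict
    (Cob.wt (NNm m p h (j + 1)) s w) fun x => Cob.IsWt.mapRing (isLawHom_NNm_red m p h _) x.2
  d_d _ _ x := Subtype.ext (Cob.d_d x.1)
  d_r _ _ x := Subtype.ext (Cob.mapRing_d (isLawHom_NNm_red m p h _) x.1).symm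

end Vale.Agent.P261.M
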