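import Vale.Agent.P261.TopModel
import Vale.Agent.P261.H273.Tri

/-!
# P261: exactness of the cobar complex modulo `p` and exactness

* `Bd`: the coboundaries of the cobar complex `Hom(P⟦t⟧, F (Q (s+1) Y))`;
* `bd_of_modp`: if the cobar complex of `G₁ = G₀ / p` is exact in degree `s` then so is the one of
  `G₀`, when the groups are derived `p`-complete and the reduction is onto with kernel the
  multiples of `p`;
* `Couple.smul_eq_zero_of`: an integer killing the only non-zero cohomology group kills `D^0`.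
-/

open CategoryTheory Limits Pretriangulated MonoidalCategory MonObj

set_option linter.unusedSectionVars false

universe v u v' u' w

namespace Vale.Agent.P261.M

open Vale.Agent.P251.S Vale.Agent.P251.T Vale.Agent.P261 Vale.Agent.P261.H273

section couple

open Couple

variable {C : Couple.{u, v}}

/-- If `e` kills the cohomology in `E^{s₀}_n` and the cohomology in `E^s_n` is zero for `s ≠ s₀`
then `e` kills `D^0_n`. -/
theorem smul_eq_zero_of {S : ℕ} (hS : C.Conv S) {n : ℤ} (s₀ : ℕ) (e : ℤ)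
    (h1 : ∀ s, s ≠ s₀ → C.EZ s n ≤ C.EB s n) (h2 : ∀ z ∈ C.EZ s₀ n, e • z ∈ C.EB s₀ n)
    (x : C.D 0 n) : e • x = 0 := by
  have h3 : ∀ s ≤ s₀, x ∈ C.Fil n s := by
    intro s
    induction s with
    | zero => intro _; exact ⟨x, rfl⟩
    | succ s ih => intro hs; exact Fil_le_of_EZ_le (h1 s (by omega)) (ih (by omega))
  obtain ⟨y, hy⟩ := h3 s₀ le_rfl
  have h4 : C.pr n s₀ (e • y) ∈ C.Fil n (s₀ + 1) := by
    refine pr_mem_of_j _ ?_
    rw [map_zsmul]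
    exact h2 _ (C.mem_EZ.2 (C.isCocycle_j y))
  rw [map_zsmul, hy] at h4
  have h5 : ∀ r, e • x ∈ C.Fil n (s₀ + 1 + r) := by
    intro r
    induction r with
    | zero => exact h4
    | succ r ih => exact Fil_le_of_EZ_le (h1 (s₀ + 1 + r) (by omega)) ih
  have h6 := h5 S
  have h7 : C.Fil n (s₀ + 1 + S) = ⊥ := by
    have e : s₀ + 1 + S = (s₀ + S) + 1 := by omega
    rw [e]
    exact Fil_eq_bot hS n (s₀ + S) (by omega)
  rwa [h7, AddSubgroup.mem_bot] at h6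

end couple

variable {T : Type u} [Category.{v} T] [Preadditive T] [HasZeroObject T] [HasShift T ℤ]
  [∀ n : ℤ, (shiftFunctor T n).Additive] [Pretriangulated T] [MonoidalCategory T]
  [SymmetricCategory T] [TensorTriangulated T]
  {D : Type u'} [Category.{v'} D] [Preadditive D] [HasZeroObject D] [HasShift D ℤ]
  [∀ n : ℤ, (shiftFunctor D n).Additive] [Pretriangulated D]
  {R : T} [MonObj R] (U : UnitCof R) (Y : T)

/-- The coboundaries of the cobar complex. -/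
def Bd (F : T ⥤ D) (P : D) (t : ℤ) : ∀ s : ℕ, (P⟦t⟧ ⟶ F.obj (U.cobar.Q (s + 1) Y)) → Prop
  | 0, x => x = 0
  | s + 1, x => ∃ y : P⟦t⟧ ⟶ F.obj (U.cobar.Q (s + 1) Y), y ≫ F.map (U.cobar.d (s + 1) Y) = x

section model

variable {U Y} {F : T ⥤ D} [F.CommShift ℤ] [F.IsTriangulated] {P : D}

theorem bd_of_mem_B {w : ℤ} {Tw : TowerCx.{w}} (Φ : U.CobModel Y F P w Tw) {s : ℕ}
    (c : P⟦2 * w⟧ ⟶ F.obj (U.cobar.Q (s + 1) Y)) (hB : Φ.ψ s c ∈ (limCx Tw).B s) :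
    Bd U Y F P (2 * w) s c := by
  rcases s with _ | s
  · rw [Cx.mem_B_zero] at hB
    exact (Φ.ψ 0).injective (hB.trans (map_zero _).symm)
  · obtain ⟨y, hy⟩ := hB
    obtain ⟨c', rfl⟩ := (Φ.ψ s).surjective y
    rw [Φ.d_ψ] at hy
    exact ⟨c', (Φ.ψ (s + 1)).injective hy⟩

theorem qE_mem_EB_of_bd {s : ℕ} {n t : ℤ} (h : n + (s : ℤ) = t)
    (c : P⟦t⟧ ⟶ F.obj (U.cobar.Q (s + 1) Y)) (hB : Bd U Y F P t s c) :
    U.qE Y F P h c ∈ (((U.tow Y).map F).couple P).EB s n := by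
  rcases s with _ | s
  · have h1 : c = 0 := hB
    rw [h1, map_zero]
    exact AddSubgroup.zero_mem _
  · obtain ⟨c', hc'⟩ := hB
    have h2 : (n + 1) + (s : ℤ) = t := by push_cast at h; omega
    exact ⟨U.qE Y F P h2 c', by rw [U.d_qE Y F P rfl h2 h, hc']⟩

theorem EZ_le_of_bd {s : ℕ} {n t : ℤ} (h : n + (s : ℤ) = t)
    (hv : ∀ c : P⟦t⟧ ⟶ F.obj (U.cobar.Q (s + 1) Y), c ≫ F.map (U.cobar.d (s + 1) Y) = 0 →
      Bd U Y F P t s c) :
    (((U.tow Y).map F).couple P).EZ s n ≤ (((U.tow Y).map F).couple P).EB s n := by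
  intro z hz
  obtain ⟨c, hc, rfl⟩ := U.exists_cocycle_qE Y F P h z (Couple.mem_EZ _ |>.1 hz)
  exact qE_mem_EB_of_bd h c (hv c hc)

/-- An integer killing the cohomology of the limit complex kills the `E_2`-term. -/
theorem smul_mem_EB_of_model {w : ℤ} {Tw : TowerCx.{w}} (Φ : U.CobModel Y F P w Tw) {s : ℕ}
    {n : ℤ} (h : n + (s : ℤ) = 2 * w) (e : ℤ)
    (hv : ∀ x ∈ (limCx Tw).Z s, e • x ∈ (limCx Tw).B s)
    (z : (((U.tow Y).map F).couple P).E s n) (hz : z ∈ (((U.tow Y).map F).couple P).EZ s n) :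
    e • z ∈ (((U.tow Y).map F).couple P).EB s n := by
  obtain ⟨c, hc, rfl⟩ := U.exists_cocycle_qE Y F P h z (Couple.mem_EZ _ |>.1 hz)
  rw [← map_zsmul]
  refine Φ.qE_mem_EB h (e • c) ?_
  rw [map_zsmul]
  exact hv _ ((Φ.mem_Z_iff s c).2 hc)

end model

section modp

variable {U Y} {G₀ G₁ : T ⥤ D} [G₀.PreservesZeroMorphisms] {P : D} {t : ℤ} {p : ℕ} (τ : G₀ ⟶ G₁)
  (hlift : ∀ (s : ℕ) (y : P⟦t⟧ ⟶ G₁.obj (U.cobar.Q (s + 1) Y)),
    ∃ z : P⟦t⟧ ⟶ G₀.obj (U.cobar.Q (s + 1) Y), z ≫ τ.app _ = y)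
  (hker : ∀ (s : ℕ) (x : P⟦t⟧ ⟶ G₀.obj (U.cobar.Q (s + 1) Y)), x ≫ τ.app _ = 0 →
    ∃ z : P⟦t⟧ ⟶ G₀.obj (U.cobar.Q (s + 1) Y), x = p • z)
  (hinj : ∀ (s : ℕ) (x : P⟦t⟧ ⟶ G₀.obj (U.cobar.Q (s + 1) Y)), p • x = 0 → x = 0)
  (hdc : ∀ s : ℕ, DComp p (P⟦t⟧ ⟶ G₀.obj (U.cobar.Q (s + 1) Y)))

include hlift hker hinj hdc

/-- **Exactness modulo `p` implies exactness.** -/
theorem bd_of_modp {s : ℕ}
    (h1 : ∀ c : P⟦t⟧ ⟶ G₁.obj (U.cobar.Q (s + 1) Y), c ≫ G₁.map (U.cobar.d (s + 1) Y) = 0 →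
      Bd U Y G₁ P t s c)
    (c : P⟦t⟧ ⟶ G₀.obj (U.cobar.Q (s + 1) Y)) (hc : c ≫ G₀.map (U.cobar.d (s + 1) Y) = 0) :
    Bd U Y G₀ P t s c := by
  have hcoc : ∀ c : P⟦t⟧ ⟶ G₀.obj (U.cobar.Q (s + 1) Y),
      c ≫ G₀.map (U.cobar.d (s + 1) Y) = 0 →
      (c ≫ τ.app _) ≫ G₁.map (U.cobar.d (s + 1) Y) = 0 := by
    intro c hc
    rw [Category.assoc, ← τ.naturality, ← Category.assoc, hc, zero_comp]
  have hdiv : ∀ z : P⟦t⟧ ⟶ G₀.obj (U.cobar.Q (s + 1) Y),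
      (p • z) ≫ G₀.map (U.cobar.d (s + 1) Y) = 0 → z ≫ G₀.map (U.cobar.d (s + 1) Y) = 0 := by
    intro z hz
    apply hinj (s + 1)
    rwa [Preadditive.nsmul_comp] at hz
  rcases s with _ | s
  · have hstep : ∀ x : {c : P⟦t⟧ ⟶ G₀.obj (U.cobar.Q (0 + 1) Y) //
        c ≫ G₀.map (U.cobar.d (0 + 1) Y) = 0},
        ∃ z : {c : P⟦t⟧ ⟶ G₀.obj (U.cobar.Q (0 + 1) Y) //
          c ≫ G₀.map (U.cobar.d (0 + 1) Y) = 0}, x.1 = p • z.1 := by
      rintro ⟨x, hx⟩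
      have h2 : x ≫ τ.app _ = 0 := h1 _ (hcoc x hx)
      obtain ⟨z, hz⟩ := hker 0 x h2
      exact ⟨⟨z, hdiv z (by rw [← hz]; exact hx)⟩, hz⟩
    choose f hf using hstep
    let s : ℕ → {c : P⟦t⟧ ⟶ G₀.obj (U.cobar.Q (0 + 1) Y) //
        c ≫ G₀.map (U.cobar.d (0 + 1) Y) = 0} := fun k => Nat.rec ⟨c, hc⟩ (fun _ y => f y) k
    exact (hdc 0).eq_zero (x := fun k => (s k).1) (fun k => hf (s k)) 0
  · have hstep : ∀ x : {c : P⟦t⟧ ⟶ G₀.obj (U.cobar.Q (s + 1 + 1) Y) //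
        c ≫ G₀.map (U.cobar.d (s + 1 + 1) Y) = 0},
        ∃ (z : {c : P⟦t⟧ ⟶ G₀.obj (U.cobar.Q (s + 1 + 1) Y) //
          c ≫ G₀.map (U.cobar.d (s + 1 + 1) Y) = 0})
          (y : P⟦t⟧ ⟶ G₀.obj (U.cobar.Q (s + 1) Y)),
          x.1 = y ≫ G₀.map (U.cobar.d (s + 1) Y) + p • z.1 := by
      rintro ⟨x, hx⟩
      obtain ⟨y₁, hy₁⟩ := h1 _ (hcoc x hx)
      obtain ⟨y, rfl⟩ := hlift s y₁
      have h2 : (x - y ≫ G₀.map (U.cobar.d (s + 1) Y)) ≫ τ.app _ = 0 := by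
        rw [Preadditive.sub_comp, ← hy₁, Category.assoc, Category.assoc, τ.naturality, sub_self]
      obtain ⟨z, hz⟩ := hker (s + 1) _ h2
      refine ⟨⟨z, hdiv z ?_⟩, y, ?_⟩
      · have h3 : G₀.map (U.cobar.d (s + 1) Y) ≫ G₀.map (U.cobar.d (s + 1 + 1) Y) = 0 := by
          rw [← G₀.map_comp, U.cobar.d_d, G₀.map_zero]
        rw [← hz, Preadditive.sub_comp, hx, Category.assoc, h3, comp_zero, sub_zero]
      · dsimp only
        rw [← hz]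
        abel
    choose f g hf using hstep
    let q : ℕ → {c : P⟦t⟧ ⟶ G₀.obj (U.cobar.Q (s + 1 + 1) Y) //
        c ≫ G₀.map (U.cobar.d (s + 1 + 1) Y) = 0} := fun k => Nat.rec ⟨c, hc⟩ (fun _ y => f y) k
    obtain ⟨x, hx, -⟩ := hdc s (fun k => g (q k))
    have h3 : ∀ k, (q k).1 - x k ≫ G₀.map (U.cobar.d (s + 1) Y) =
        p • ((q (k + 1)).1 - x (k + 1) ≫ G₀.map (U.cobar.d (s + 1) Y)) := by
      intro k
      have h4 : (q k).1 = g (q k) ≫ G₀.map (U.cobar.d (s + 1) Y) + p • (q (k + 1)).1 := hf (q k)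
      have h5 := hx k
      rw [h4, ← h5, Preadditive.sub_comp, Preadditive.nsmul_comp, smul_sub]
      abel
    have h6 := (hdc (s + 1)).eq_zero h3 0
    exact ⟨x 0, (sub_eq_zero.1 h6).symm⟩

end modp

end Vale.Agent.P261.M
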