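import Vale.Agent.P251.S.CobLim
import Vale.Agent.P261.M.NNm

/-!
# P261: the limit of the cobar rings `Cob (v_h⁻¹ Laz/(m, I_h^j)) s`

Pure algebra.  If `E` is a `Cob Laz s`-module with an element `u` such that `E` is complete for
`I_h`, `v_h` is bijective on `E` and `v_h⁻¹ Cob/(p, I_h^j) → E/I_h^j`, `c ↦ c u` is bijective, then
`E` is the limit of the `Cob (NNm m p h j) s` (`CobComplM.lamLim`), compatibly with everything.
-/

open Vale.Agent.P251.F Vale.Agent.P251.I Vale.Agent.P251.S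

namespace Vale.Agent.P261.M

section NN

variable (m p h : ℕ) [Fact p.Prime] (j s : ℕ)

theorem ofLaz_QNm : LawRing.ofLaz (QNm m p h j) = Ideal.Quotient.mk (IJm m p h j) :=
  Laz.lift_map_univ _

theorem ofLaz_NNm : LawRing.ofLaz (NNm m p h j) =
    (algebraMap (QNm m p h j) (NNm m p h j)).comp (Ideal.Quotient.mk (IJm m p h j)) := by
  have h1 : (LawRing.law (N := NNm m p h j)) = Laz.univ.map ((algebraMap (QNm m p h j)
      (NNm m p h j)).comp (Ideal.Quotient.mk (IJm m p h j))) := by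
    rw [← Law.map_map]
    rfl
  rw [LawRing.ofLaz, h1, Laz.lift_map_univ]

/-- The map `Cob Laz s → Cob (v_h⁻¹ Laz/(m, I_h^j)) s`. -/
noncomputable def toNNm : Cob Laz s →+* Cob (NNm m p h j) s :=
  Cob.mapRing (LawRing.ofLaz (NNm m p h j)) s

/-- `(p) + I_h^j` at the vertex `0`. -/
noncomputable def IJCm : Ideal (Cob Laz s) := (IJm m p h j).map MvPolynomial.C

omit [Fact p.Prime] in
theorem IJCm_eq : IJCm m p h j s = Ideal.span {(m : Cob Laz s)} ⊔ IC p h s ^ j := by
  rw [IJCm, IJm, Ideal.map_sup, Ideal.map_span, Ideal.map_pow, Set.image_singleton, map_natCast,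
    IC]

theorem coeff_toNNm (c : Cob Laz s) (μ : Fin s × ℕ →₀ ℕ) :
    MvPolynomial.coeff μ (toNNm m p h j s c) =
      algebraMap (QNm m p h j) (NNm m p h j) (Ideal.Quotient.mk (IJm m p h j) (MvPolynomial.coeff μ c)) := by
  rw [toNNm, Cob.mapRing, MvPolynomial.coeff_map, ofLaz_NNm]
  rfl

theorem toNNm_vC : toNNm m p h j s (vC p h s) = MvPolynomial.C
    (algebraMap (QNm m p h j) (NNm m p h j) (Ideal.Quotient.mk (IJm m p h j) (Laz.v p h))) := by
  rw [toNNm, Cob.mapRing, vC, MvPolynomial.map_C, ofLaz_NNm]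
  rfl

theorem isUnit_toNNm_vC : IsUnit (toNNm m p h j s (vC p h s)) := by
  rw [toNNm_vC]
  exact (IsLocalization.Away.algebraMap_isUnit _).map MvPolynomial.C

/-- The kernel of `toNNm`. -/
theorem toNNm_eq_zero_iff (c : Cob Laz s) :
    toNNm m p h j s c = 0 ↔ ∃ k : ℕ, vC p h s ^ k * c ∈ IJCm m p h j s := by
  constructor
  · intro hc
    have h1 : ∀ μ, ∃ k : ℕ, Laz.v p h ^ k * MvPolynomial.coeff μ c ∈ IJm m p h j := by
      intro μ
      have h2 := coeff_toNNm m p h j s c μ
      rw [hc, MvPolynomial.coeff_zero] at h2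
      obtain ⟨⟨x, k, hk⟩, hx⟩ := (IsLocalization.map_eq_zero_iff (Submonoid.powers
        (Ideal.Quotient.mk (IJm m p h j) (Laz.v p h))) (NNm m p h j) _).1 h2.symm
      refine ⟨k, ?_⟩
      rw [← Ideal.Quotient.eq_zero_iff_mem, map_mul, map_pow]
      simp only at hk
      rw [hk]
      exact hx
    choose K hK using h1
    refine ⟨c.support.sup K, ?_⟩
    rw [IJCm, MvPolynomial.mem_map_C_iff]
    intro μ
    rw [vC, ← map_pow, MvPolynomial.coeff_C_mul]
    by_cases hm : μ ∈ c.support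
    · obtain ⟨l, hl⟩ := Nat.exists_eq_add_of_le (Finset.le_sup (f := K) hm)
      rw [hl, add_comm, pow_add, mul_assoc]
      exact Ideal.mul_mem_left _ _ (hK μ)
    · rw [MvPolynomial.notMem_support_iff.1 hm, mul_zero]
      exact zero_mem _
  · rintro ⟨k, hk⟩
    have h1 : toNNm m p h j s (vC p h s ^ k * c) = 0 := by
      ext μ
      rw [coeff_toNNm, Ideal.Quotient.eq_zero_iff_mem.2
        ((MvPolynomial.mem_map_C_iff (I := IJm m p h j)).1 hk μ), map_zero, MvPolynomial.coeff_zero]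
    rw [map_mul, map_pow] at h1
    exact (((isUnit_toNNm_vC m p h j s).pow k).mul_right_eq_zero).1 h1

/-- Every element of `Cob (NNm m p h j) s` is a fraction. -/
theorem exists_toNNm (y : Cob (NNm m p h j) s) :
    ∃ (k : ℕ) (c : Cob Laz s), toNNm m p h j s (vC p h s) ^ k * y = toNNm m p h j s c := by
  induction y using MvPolynomial.induction_on with
  | C a =>
    obtain ⟨⟨x, y', k, hk⟩, hx⟩ := IsLocalization.surj (Submonoid.powers
      (Ideal.Quotient.mk (IJm m p h j) (Laz.v p h))) a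
    obtain ⟨x, rfl⟩ := Ideal.Quotient.mk_surjective x
    refine ⟨k, MvPolynomial.C x, ?_⟩
    simp only at hk hx
    rw [toNNm_vC, ← map_pow, ← map_pow, hk, ← map_mul, toNNm, Cob.mapRing, MvPolynomial.map_C,
      ofLaz_NNm, mul_comm, hx]
    rfl
  | add x y hx hy =>
    obtain ⟨k, c, hc⟩ := hx
    obtain ⟨k', c', hc'⟩ := hy
    refine ⟨k + k', vC p h s ^ k' * c + vC p h s ^ k * c', ?_⟩
    rw [map_add, map_mul, map_mul, map_pow, map_pow, ← hc, ← hc']
    ring
  | mul_X x n hx =>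
    obtain ⟨k, c, hc⟩ := hx
    refine ⟨k, c * MvPolynomial.X n, ?_⟩
    rw [← mul_assoc, hc, map_mul]
    congr 1
    rw [toNNm, Cob.mapRing, MvPolynomial.map_X]

theorem red_toNNm {a b : ℕ} (hab : a ≤ b) (c : Cob Laz s) :
    Cob.mapRing (NNm.red m p h hab) s (toNNm m p h b s c) = toNNm m p h a s c := by
  rw [toNNm, toNNm, Cob.mapRing_mapRing]
  congr 2
  apply Laz.equiv.injective
  change Laz.univ.map _ = Laz.univ.map _
  rw [← Law.map_map, LawRing.ofLaz, LawRing.ofLaz, Laz.univ_map_lift, Laz.univ_map_lift,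
    (isLawHom_NNm_red m p h hab).law]

end NN

section Compl

variable (m p h s : ℕ)

/-- `E` is the completion of `v_h⁻¹ (Cob Laz s / p)`, with unit `u`. -/
structure CobComplM {E : Type*} [AddCommGroup E] [Module (Cob Laz s) E] (u : E) : Prop where
  haus : ∀ e : E, (∀ k, e ∈ (IC p h s ^ k • ⊤ : Submodule (Cob Laz s) E)) → e = 0
  complete : CauchyComplete (IC p h s) E
  inj : ∀ e : E, vC p h s • e = 0 → e = 0
  surj : ∀ e : E, ∃ e' : E, vC p h s • e' = e
  dense : ∀ (j : ℕ) (e : E), ∃ (k : ℕ) (c : Cob Laz s),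
    vC p h s ^ k • e - c • u ∈ (IC p h s ^ j • ⊤ : Submodule (Cob Laz s) E)
  closed : ∀ (j : ℕ) (c : Cob Laz s), c • u ∈ (IC p h s ^ j • ⊤ : Submodule (Cob Laz s) E) →
    ∃ k : ℕ, vC p h s ^ k * c ∈ IJCm m p h j s
  m_smul : ∀ e : E, (m : Cob Laz s) • e = 0

variable {E : Type*} [AddCommGroup E] [Module (Cob Laz s) E] {u : E}

/-- From the condition `C` for a cyclic module `F = Cob/p`. -/
theorem CobComplM.of_compCond {F : Type*} [AddCommGroup F] [Module (Cob Laz s) F]
    {φ : F →ₗ[Cob Laz s] E} (H : CompCond (IC p h s) (vC p h s) φ) (uF : F)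
    (hgen : ∀ f : F, ∃ c : Cob Laz s, c • uF = f)
    (hker : ∀ c : Cob Laz s, c • uF = 0 → c ∈ Ideal.span {(m : Cob Laz s)})
    (hp : ∀ e : E, (m : Cob Laz s) • e = 0) : CobComplM m p h s (φ uF) where
  haus := H.haus
  complete := H.complete
  inj := H.inj
  surj := H.surj
  dense j e := by
    obtain ⟨k, f, hf⟩ := H.dense j e
    obtain ⟨c, rfl⟩ := hgen f
    exact ⟨k, c, by rwa [map_smul] at hf⟩
  closed j c hc := by
    rw [← map_smul] at hc
    obtain ⟨k, hk⟩ := H.closed j _ hc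
    refine ⟨k, ?_⟩
    have h1 : ∀ x ∈ (IC p h s ^ j • ⊤ : Submodule (Cob Laz s) F),
        ∃ a ∈ IC p h s ^ j, a • uF = x := by
      intro x hx
      refine Submodule.smul_induction_on hx ?_ ?_
      · rintro r hr f -
        obtain ⟨c, rfl⟩ := hgen f
        exact ⟨r * c, Ideal.mul_mem_right _ _ hr, mul_smul _ _ _⟩
      · rintro x y ⟨a, ha, rfl⟩ ⟨b, hb, rfl⟩
        exact ⟨a + b, add_mem ha hb, add_smul _ _ _⟩
    obtain ⟨a, ha, hae⟩ := h1 _ hk
    rw [smul_smul, ← sub_eq_zero, ← sub_smul] at hae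
    have h2 := hker _ hae
    rw [IJCm_eq]
    have h3 : vC p h s ^ k * c = a - (a - vC p h s ^ k * c) := by ring
    rw [h3]
    exact sub_mem (Ideal.mem_sup_right ha) (Ideal.mem_sup_left h2)
  m_smul := hp

/-- From the condition `C` for a module which is `Cob` up to multiples of `p`. -/
theorem CobComplM.of_compCond0 {F : Type*} [AddCommGroup F] [Module (Cob Laz s) F]
    {φ : F →ₗ[Cob Laz s] E} (H : CompCond (IC p h s) (vC p h s) φ)
    (hpI : (p : Cob Laz s) ∈ IC p h s) (uF : F)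
    (hgen : ∀ f : F, ∃ (c : Cob Laz s) (f' : F), f = c • uF + (p : Cob Laz s) • f')
    (hker : ∀ (c : Cob Laz s) (f : F), c • uF = (p : Cob Laz s) • f →
      c ∈ Ideal.span {(p : Cob Laz s)})
    (hinj : ∀ f : F, (p : Cob Laz s) • f = 0 → f = 0) : CobComplM 0 p h s (φ uF) := by
  have hpj : ∀ j : ℕ, (p : Cob Laz s) ^ j ∈ IC p h s ^ j := fun j => Ideal.pow_mem_pow hpI j
  have hgen' : ∀ (j : ℕ) (f : F), ∃ (c : Cob Laz s) (f' : F),
      f = c • uF + (p : Cob Laz s) ^ j • f' := by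
    intro j
    induction j with
    | zero => intro f; exact ⟨0, f, by rw [zero_smul, pow_zero, one_smul, zero_add]⟩
    | succ j ih =>
      intro f
      obtain ⟨c, f', hf⟩ := ih f
      obtain ⟨c', f'', hf'⟩ := hgen f'
      refine ⟨c + (p : Cob Laz s) ^ j * c', f'', ?_⟩
      rw [hf, hf', smul_add, add_smul, mul_smul, pow_succ, mul_smul, add_assoc]
  have hker' : ∀ (j : ℕ) (c : Cob Laz s) (f : F), c • uF = (p : Cob Laz s) ^ j • f →
      c ∈ IC p h s ^ j := by
    intro j
    induction j with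
    | zero => intro c f _; rw [pow_zero, Ideal.one_eq_top]; trivial
    | succ j ih =>
      intro c f hc
      rw [pow_succ', mul_smul] at hc
      obtain ⟨c', rfl⟩ := Ideal.mem_span_singleton'.1 (hker c _ hc)
      have h1 : c' • uF - (p : Cob Laz s) ^ j • f = 0 := by
        apply hinj
        rw [smul_sub, ← hc, mul_comm, mul_smul, sub_self]
      have h2 := ih c' f (sub_eq_zero.1 h1)
      rw [pow_succ]
      exact Ideal.mul_mem_mul h2 hpI
  refine ⟨H.haus, H.complete, H.inj, H.surj, ?_, ?_, ?_⟩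
  · intro j e
    obtain ⟨k, f, hf⟩ := H.dense j e
    obtain ⟨c, f', rfl⟩ := hgen' j f
    refine ⟨k, c, ?_⟩
    have h1 : vC p h s ^ k • e - c • φ uF =
        (vC p h s ^ k • e - φ (c • uF + (p : Cob Laz s) ^ j • f')) +
          (p : Cob Laz s) ^ j • φ f' := by
      rw [map_add, map_smul, map_smul]
      abel
    rw [h1]
    exact add_mem hf (Submodule.smul_mem_smul (hpj j) trivial)
  · intro j c hc
    rw [← map_smul] at hc
    obtain ⟨k, hk⟩ := H.closed j _ hc
    refine ⟨k, ?_⟩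
    have h1 : ∀ x ∈ (IC p h s ^ j • ⊤ : Submodule (Cob Laz s) F),
        ∃ a ∈ IC p h s ^ j, ∃ f' : F, x = a • uF + (p : Cob Laz s) ^ j • f' := by
      intro x hx
      refine Submodule.smul_induction_on hx ?_ ?_
      · rintro r hr f -
        obtain ⟨c, f', rfl⟩ := hgen' j f
        refine ⟨r * c, Ideal.mul_mem_right _ _ hr, r • f', ?_⟩
        rw [smul_add, mul_smul, smul_comm r ((p : Cob Laz s) ^ j)]
      · rintro x y ⟨a, ha, f', rfl⟩ ⟨b, hb, f'', rfl⟩
        refine ⟨a + b, add_mem ha hb, f' + f'', ?_⟩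
        rw [add_smul, smul_add]
        abel
    obtain ⟨a, ha, f', hf'⟩ := h1 _ hk
    have h2 : vC p h s ^ k * c - a ∈ IC p h s ^ j := by
      refine hker' j _ f' ?_
      rw [sub_smul, mul_smul, hf']
      abel
    rw [IJCm_eq]
    have h3 : vC p h s ^ k * c = (vC p h s ^ k * c - a) + a := by ring
    rw [h3]
    exact Ideal.mem_sup_right (add_mem h2 ha)
  · intro e
    rw [Nat.cast_zero, zero_smul]

namespace CobComplM

variable {m p h s}

theorem fil_anti {a b : ℕ} (hab : a ≤ b) : Fil p h s b E ≤ Fil p h s a E :=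
  Submodule.smul_mono_left (Ideal.pow_le_pow_right hab)

variable (H : CobComplM m p h s u)
include H

theorem pow_inj (k : ℕ) {e : E} (he : vC p h s ^ k • e = 0) : e = 0 := by
  induction k with
  | zero => simpa using he
  | succ k ih =>
    rw [pow_succ', mul_smul] at he
    exact ih (H.inj _ he)

theorem pow_surj (k : ℕ) (e : E) : ∃ e' : E, vC p h s ^ k • e' = e := by
  induction k with
  | zero => exact ⟨e, by simp⟩
  | succ k ih =>
    obtain ⟨e', he'⟩ := ih
    obtain ⟨e'', he''⟩ := H.surj e'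
    exact ⟨e'', by rw [pow_succ, mul_smul, he'', he']⟩

theorem fil_cancel (j k : ℕ) {e : E} (he : vC p h s ^ k • e ∈ Fil p h s j E) :
    e ∈ Fil p h s j E := by
  have h1 : ∀ x ∈ Fil p h s j E, ∃ y ∈ Fil p h s j E, vC p h s ^ k • y = x := by
    intro x hx
    refine Submodule.smul_induction_on hx ?_ ?_
    · rintro r hr e -
      obtain ⟨e', rfl⟩ := H.pow_surj k e
      exact ⟨r • e', Submodule.smul_mem_smul hr trivial, smul_comm _ _ _⟩
    · rintro x y ⟨a, ha, rfl⟩ ⟨b, hb, rfl⟩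
      exact ⟨a + b, add_mem ha hb, smul_add _ _ _⟩
  obtain ⟨y, hy, hye⟩ := h1 _ he
  have : y = e := by
    rw [← sub_eq_zero]
    apply H.pow_inj k
    rw [smul_sub, hye, sub_self]
  rwa [← this]

theorem smul_u_mem {j : ℕ} {c : Cob Laz s} (hc : c ∈ IJCm m p h j s) : c • u ∈ Fil p h s j E := by
  rw [IJCm_eq] at hc
  obtain ⟨a, ha, b, hb, rfl⟩ := Submodule.mem_sup.1 hc
  rw [add_smul]
  refine add_mem ?_ (Submodule.smul_mem_smul hb trivial)
  obtain ⟨x, rfl⟩ := Ideal.mem_span_singleton'.1 ha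
  rw [mul_smul, H.m_smul, smul_zero]
  exact zero_mem _

variable [Fact p.Prime]

theorem toNNm_eq_zero_iff' (j : ℕ) (c : Cob Laz s) :
    toNNm m p h j s c = 0 ↔ c • u ∈ Fil p h s j E := by
  rw [toNNm_eq_zero_iff]
  constructor
  · rintro ⟨k, hk⟩
    have := H.smul_u_mem hk
    rw [mul_smul] at this
    exact H.fil_cancel j k this
  · exact H.closed j c

theorem exists_lam (j : ℕ) (e : E) : ∃ y : Cob (NNm m p h j) s, ∀ (k : ℕ) (c : Cob Laz s),
    vC p h s ^ k • e - c • u ∈ Fil p h s j E →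
      toNNm m p h j s (vC p h s) ^ k * y = toNNm m p h j s c := by
  obtain ⟨k₀, c₀, h₀⟩ := H.dense j e
  have hu := (isUnit_toNNm_vC m p h j s).pow k₀
  obtain ⟨w, hw⟩ := hu
  refine ⟨(w⁻¹ : (Cob (NNm m p h j) s)ˣ) * toNNm m p h j s c₀, fun k c hc => ?_⟩
  have h1 : (vC p h s ^ k * c₀ - vC p h s ^ k₀ * c) • u ∈ Fil p h s j E := by
    have e1 : (vC p h s ^ k * c₀ - vC p h s ^ k₀ * c) • u =
        vC p h s ^ k₀ • (vC p h s ^ k • e - c • u) - vC p h s ^ k • (vC p h s ^ k₀ • e - c₀ • u) := by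
      simp only [sub_smul, mul_smul, smul_sub]
      rw [smul_comm (vC p h s ^ k₀) (vC p h s ^ k) e]
      abel
    rw [e1]
    exact sub_mem (Submodule.smul_mem _ _ hc) (Submodule.smul_mem _ _ h₀)
  have h2 := (H.toNNm_eq_zero_iff' j _).2 h1
  rw [map_sub, map_mul, map_mul, map_pow, map_pow, ← hw, sub_eq_zero] at h2
  calc toNNm m p h j s (vC p h s) ^ k * ((w⁻¹ : (Cob (NNm m p h j) s)ˣ) * toNNm m p h j s c₀)
      = (w⁻¹ : (Cob (NNm m p h j) s)ˣ) * (toNNm m p h j s (vC p h s) ^ k * toNNm m p h j s c₀) := by ring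
    _ = toNNm m p h j s c := by rw [h2, Units.inv_mul_cancel_left]

/-- The map `E → Cob (NNm m p h j) s`. -/
noncomputable def lamFun (j : ℕ) (e : E) : Cob (NNm m p h j) s := (H.exists_lam j e).choose

theorem lamFun_spec (j : ℕ) (e : E) {k : ℕ} {c : Cob Laz s}
    (hc : vC p h s ^ k • e - c • u ∈ Fil p h s j E) :
    toNNm m p h j s (vC p h s) ^ k * H.lamFun j e = toNNm m p h j s c :=
  (H.exists_lam j e).choose_spec k c hc

theorem lamFun_unique (j : ℕ) (e : E) {k : ℕ} {c : Cob Laz s} {y : Cob (NNm m p h j) s}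
    (hc : vC p h s ^ k • e - c • u ∈ Fil p h s j E)
    (hy : toNNm m p h j s (vC p h s) ^ k * y = toNNm m p h j s c) : H.lamFun j e = y :=
  ((isUnit_toNNm_vC m p h j s).pow k).mul_right_injective (by
    change toNNm m p h j s (vC p h s) ^ k * _ = toNNm m p h j s (vC p h s) ^ k * _
    rw [H.lamFun_spec j e hc, hy])

/-- The map `E → Cob (NNm m p h j) s`, as an additive map. -/
noncomputable def lam (j : ℕ) : E →+ Cob (NNm m p h j) s where
  toFun := H.lamFun j
  map_zero' := H.lamFun_unique j 0 (k := 0) (c := 0)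
    (by simp only [smul_zero, zero_smul, sub_zero]; exact zero_mem _) (by simp)
  map_add' e e' := by
    obtain ⟨k, c, hc⟩ := H.dense j e
    obtain ⟨k', c', hc'⟩ := H.dense j e'
    refine H.lamFun_unique j _ (k := k + k') (c := vC p h s ^ k' * c + vC p h s ^ k * c') ?_ ?_
    · have : vC p h s ^ (k + k') • (e + e') - (vC p h s ^ k' * c + vC p h s ^ k * c') • u =
          vC p h s ^ k' • (vC p h s ^ k • e - c • u) +
            vC p h s ^ k • (vC p h s ^ k' • e' - c' • u) := by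
        rw [pow_add]
        simp only [smul_add, add_smul, mul_smul, smul_sub]
        rw [smul_comm (vC p h s ^ k') (vC p h s ^ k) e]
        abel
      rw [this]
      exact add_mem (Submodule.smul_mem _ _ hc) (Submodule.smul_mem _ _ hc')
    · rw [map_add, map_mul, map_mul, map_pow, map_pow, ← H.lamFun_spec j e hc,
        ← H.lamFun_spec j e' hc']
      ring

theorem lam_spec (j : ℕ) (e : E) {k : ℕ} {c : Cob Laz s}
    (hc : vC p h s ^ k • e - c • u ∈ Fil p h s j E) :
    toNNm m p h j s (vC p h s) ^ k * H.lam j e = toNNm m p h j s c := H.lamFun_spec j e hc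

theorem lam_unique (j : ℕ) (e : E) {k : ℕ} {c : Cob Laz s} {y : Cob (NNm m p h j) s}
    (hc : vC p h s ^ k • e - c • u ∈ Fil p h s j E)
    (hy : toNNm m p h j s (vC p h s) ^ k * y = toNNm m p h j s c) : H.lam j e = y :=
  H.lamFun_unique j e hc hy

theorem lam_smul (j : ℕ) (c : Cob Laz s) (e : E) :
    H.lam j (c • e) = toNNm m p h j s c * H.lam j e := by
  obtain ⟨k, d, hd⟩ := H.dense j e
  refine H.lam_unique j _ (k := k) (c := c * d) ?_ ?_
  · have : vC p h s ^ k • c • e - (c * d) • u = c • (vC p h s ^ k • e - d • u) := by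
      rw [smul_sub, mul_smul, smul_comm c (vC p h s ^ k) e]
    rw [this]
    exact Submodule.smul_mem _ _ hd
  · rw [map_mul, ← H.lam_spec j e hd]
    ring

theorem lam_u (j : ℕ) : H.lam j u = 1 := by
  refine H.lam_unique j _ (k := 0) (c := 1) ?_ ?_
  · rw [pow_zero, sub_self]; exact zero_mem _
  · rw [pow_zero, map_one, mul_one]

theorem lam_smul_u (j : ℕ) (c : Cob Laz s) : H.lam j (c • u) = toNNm m p h j s c := by
  rw [H.lam_smul, H.lam_u, mul_one]

theorem lam_eq_zero_iff (j : ℕ) (e : E) : H.lam j e = 0 ↔ e ∈ Fil p h s j E := by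
  obtain ⟨k, c, hc⟩ := H.dense j e
  have h1 := H.lam_spec j e hc
  constructor
  · intro h0
    rw [h0, mul_zero] at h1
    have h2 := (H.toNNm_eq_zero_iff' j c).1 h1.symm
    have h3 : vC p h s ^ k • e ∈ Fil p h s j E := by
      have := add_mem hc h2
      rwa [sub_add_cancel] at this
    exact H.fil_cancel j k h3
  · intro he
    refine H.lam_unique j e (k := 0) (c := 0) ?_ (by simp)
    rw [pow_zero, one_smul, zero_smul, sub_zero]
    exact he

theorem lam_surjective (j : ℕ) : Function.Surjective (H.lam j) := by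
  intro y
  obtain ⟨k, c, hc⟩ := exists_toNNm m p h j s y
  obtain ⟨e, he⟩ := H.pow_surj k (c • u)
  refine ⟨e, H.lam_unique j e (k := k) (c := c) ?_ hc⟩
  rw [he, sub_self]
  exact zero_mem _

theorem red_lam {a b : ℕ} (hab : a ≤ b) (e : E) :
    Cob.mapRing (NNm.red m p h hab) s (H.lam b e) = H.lam a e := by
  obtain ⟨k, c, hc⟩ := H.dense b e
  refine (H.lam_unique a e (fil_anti hab hc) ?_).symm
  have h1 := congrArg (Cob.mapRing (NNm.red m p h hab) s) (H.lam_spec b e hc)
  rwa [map_mul, map_pow, red_toNNm, red_toNNm] at h1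

/-- Elements of `E` are determined by their images. -/
theorem ext_lam {e e' : E} (hh : ∀ j, H.lam (j + 1) e = H.lam (j + 1) e') : e = e' := by
  rw [← sub_eq_zero]
  refine H.haus _ fun k => ?_
  have h1 : e - e' ∈ Fil p h s (k + 1) E := (H.lam_eq_zero_iff _ _).1 (by
    rw [map_sub, hh, sub_self])
  exact fil_anti (Nat.le_succ k) h1

/-- Compatible families come from `E`. -/
theorem exists_of_compatible (x : ∀ j, Cob (NNm m p h (j + 1)) s)
    (hx : ∀ j, Cob.mapRing (NNm.red m p h (Nat.le_succ (j + 1))) s (x (j + 1)) = x j) :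
    ∃ e : E, ∀ j, H.lam (j + 1) e = x j := by
  choose e he using fun j => H.lam_surjective (j + 1) (x j)
  obtain ⟨l, hl⟩ := H.complete e (fun k => by
    have h1 : H.lam (k + 1) (e (k + 1) - e k) = 0 := by
      rw [map_sub, he, ← H.red_lam (Nat.le_succ (k + 1)), he, hx, sub_self]
    exact fil_anti (Nat.le_succ k) ((H.lam_eq_zero_iff _ _).1 h1))
  refine ⟨l, fun j => ?_⟩
  have h1 := (H.lam_eq_zero_iff (j + 1) _).2 (hl (j + 1))
  rw [map_sub, sub_eq_zero] at h1
  rw [h1, ← hx j, ← he (j + 1), H.red_lam]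

end CobComplM

end Compl

end Vale.Agent.P261.M
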