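import Vale.Agent.P251.S.CobWt
import Vale.Agent.P261.M.CobLimM

/-!
# P261: weights and naturality for `CobComplM`

The part of weight `w` of `E` is the limit of the `(Cob (NNm m p h j) s)_w`
(`CobComplM.exists_lim`); semilinear maps induce the cosimplicial maps (`CobComplM.lam_map`).
-/

open Vale.Agent.P251.F Vale.Agent.P251.I Vale.Agent.P251.S

namespace Vale.Agent.P261.M

open CobCompl

section Invariance

variable (q p h : ℕ) [Fact p.Prime] {m n : ℕ} (α : Fin (m + 1) → Fin (n + 1))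

theorem toNNm_map (j : ℕ) (c : Cob Laz m) :
    toNNm q p h j n (Cob.map α c) = Cob.map α (toNNm q p h j m c) :=
  Cob.mapRing_map LawRing.isLawHom_ofLaz α c

end Invariance

/-! ### naturality -/

namespace CobComplM

section Nat

variable {q p h : ℕ} [Fact p.Prime] {m n : ℕ} {E E' : Type*} [AddCommGroup E] [Module (Cob Laz m) E]
  [AddCommGroup E'] [Module (Cob Laz n) E'] {u : E} {u' : E'}
  (H : CobComplM q p h m u) (H' : CobComplM q p h n u')

/-- Semilinear maps induce the cosimplicial maps. -/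
theorem lam_map {α : Fin (m + 1) → Fin (n + 1)} {f : E →+ E'}
    (hf : ∀ (c : Cob Laz m) (e : E), f (c • e) = Cob.map α c • f e) (hu : f u = u') (j : ℕ)
    (e : E) : H'.lam j (f e) = Cob.map α (H.lam j e) := by
  obtain ⟨k, c, hc⟩ := H.dense j e
  have h1 := CobCompl.map_fil hf hc
  rw [map_sub, hf, hf, hu, map_pow] at h1
  have h2 := (H'.lam_eq_zero_iff j _).2 h1
  rw [map_sub, sub_eq_zero, H'.lam_smul_u, H'.lam_smul, map_pow, toNNm_map, toNNm_map,
    ← H.lam_spec j e hc, map_mul, map_pow] at h2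
  exact (((isUnit_toNNm_vC q p h j m).map (Cob.map α)).pow k).mul_right_injective h2

end Nat

/-! ### weights -/

section Wt

variable {q p h s : ℕ} [Fact p.Prime] {E : Type*} [AddCommGroup E] [Module (Cob Laz s) E] {u : E}
  (H : CobComplM q p h s u) (D : WtProj s u)

/-- `E → Cob (NNm q p h j) s` respects the projections to the homogeneous parts. -/
theorem lam_ε (j : ℕ) (w : ℤ) (e : E) : H.lam j (D.ε w e) = Cob.proj w (H.lam j e) := by
  obtain ⟨k, c, hc⟩ := H.dense j e
  have hv : Cob.IsWt (k * ((p ^ h : ℤ) - 1)) (vC p h s ^ k) := (isWt_C_v h).pow k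
  have h1 := D.ε_fil j (k * ((p ^ h : ℤ) - 1) + w) hc
  rw [map_sub, D.ε_smul _ _ _ _ hv, D.ε_smul_u] at h1
  have h2 := H.lam_spec j _ h1
  have hv' : Cob.IsWt (k * ((p ^ h : ℤ) - 1)) (toNNm q p h j s (vC p h s) ^ k) := by
    rw [← map_pow]
    exact hv.mapRing LawRing.isLawHom_ofLaz
  refine (((isUnit_toNNm_vC q p h j s)).pow k).mul_right_injective ?_
  change toNNm q p h j s (vC p h s) ^ k * _ = toNNm q p h j s (vC p h s) ^ k * _
  rw [h2, ← CobWt.proj_mul hv', H.lam_spec j e hc]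
  exact (Cob.proj_mapRing LawRing.isLawHom_ofLaz _ c).symm

theorem isWt_lam (j : ℕ) {w : ℤ} {e : E} (he : D.ε w e = e) : Cob.IsWt w (H.lam j e) := by
  rw [← he, H.lam_ε D]
  exact Cob.isWt_proj _ _

theorem ε_of_isWt_lam {w : ℤ} {e : E} (he : ∀ j, Cob.IsWt w (H.lam (j + 1) e)) :
    D.ε w e = e := by
  refine H.ext_lam fun j => ?_
  rw [H.lam_ε D, Cob.proj_of_isWt (he j), if_pos rfl]

/-- The part of weight `w` of `E` is the limit of the `(Cob (NNm q p h j) s)_w`. -/
theorem exists_lim (w : ℤ) {G : Type*} [AddCommGroup G] (i : G →+ E)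
    (hi : Function.Injective i) (hr : ∀ e, D.ε w e = e ↔ ∃ g, i g = e) :
    ∃ φ : G ≃+ (towerNm q p h w).lim s, ∀ (g : G) (j : ℕ), ((φ g).1 j).1 = H.lam (j + 1) (i g) := by
  have h1 : ∀ g j, Cob.IsWt w (H.lam (j + 1) (i g)) := fun g j =>
    H.isWt_lam D _ ((hr _).2 ⟨g, rfl⟩)
  let φ : G →+ (towerNm q p h w).lim s :=
    { toFun := fun g => ⟨fun j => (⟨H.lam (j + 1) (i g), h1 g j⟩ :
          Cob.wt (NNm q p h (j + 1)) s w),
        fun j => Subtype.ext (H.red_lam (Nat.le_succ (j + 1)) (i g))⟩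
      map_zero' := by
        apply Subtype.ext
        funext j
        apply Subtype.ext
        change H.lam (j + 1) (i 0) = 0
        rw [map_zero, map_zero]
      map_add' := fun g g' => by
        apply Subtype.ext
        funext j
        apply Subtype.ext
        change H.lam (j + 1) (i (g + g')) = H.lam (j + 1) (i g) + H.lam (j + 1) (i g')
        rw [map_add, map_add] }
  have hφ : ∀ (g : G) (j : ℕ), ((φ g).1 j).1 = H.lam (j + 1) (i g) := fun _ _ => rfl
  refine ⟨AddEquiv.ofBijective φ ⟨?_, ?_⟩, hφ⟩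
  · intro g g' hgg
    apply hi
    refine H.ext_lam fun j => ?_
    rw [← hφ, ← hφ, hgg]
  · rintro ⟨x, hx⟩
    obtain ⟨e, he⟩ := H.exists_of_compatible (fun j => (x j).1) fun j =>
      congrArg Subtype.val (hx j)
    obtain ⟨g, rfl⟩ := (hr e).1 (H.ε_of_isWt_lam D fun j => by rw [he]; exact (x j).2)
    refine ⟨g, Subtype.ext (funext fun j => Subtype.ext ?_)⟩
    rw [hφ, he]

end Wt

end CobComplM

end Vale.Agent.P261.M
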