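import Vale.Agent.P251.S.E1MU
import Vale.Agent.P251.S.GrC

/-!
# P261: theorem E1 for the integral modules `N_s = (R^{⊗ (s+1)} ⊗ 𝟙) ⊗ PS`

The even homotopy of `L_K (R^{⊗ (s+1)})` is the `I_h`-adic completion of `v_h⁻¹ π_*`, and its odd
homotopy vanishes (`e1C_MP0`), with `I_h = (p, v_1, …, v_{h-1})`.
-/

open CategoryTheory MonoidalCategory MonObj Limits Pretriangulated

set_option linter.unusedSectionVars false

universe v u

namespace Vale.Agent.P261.M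

open Vale.Agent.P251.S Vale.Agent.P251.T Vale.Agent.P251.M Vale.Agent.P251.M.EvenSpheres
open Vale.Agent.P251.F Vale.Agent.P251

section base

variable {T : Type u} [Category.{v} T] [Preadditive T] [HasZeroObject T] [HasShift T ℤ]
  [∀ n : ℤ, (shiftFunctor T n).Additive] [Pretriangulated T]
  [MonoidalCategory T]

/-- If `w` is injective on `π_{n-1} E` then `π_n E → π_n (E / w)` is surjective. -/
lemma surjective_of_inj {E C : T} {w : E ⟶ E} {q : E ⟶ C} {d : C ⟶ E⟦(1 : ℤ)⟧}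
    (h : Triangle.mk w q d ∈ distTriang T) {n : ℤ}
    (hw : ∀ x : Sph T (n - 1) ⟶ E, x ≫ w = 0 → x = 0) (x : Sph T n ⟶ C) :
    ∃ y : Sph T n ⟶ E, y ≫ q = x := by
  have h0 : x ≫ d = 0 := by
    obtain ⟨g, hg, hg'⟩ := exists_desuspend_comp w n (x ≫ d)
      (by rw [Category.assoc, zero₃₁ h, comp_zero])
    rw [hg', hw g hg, Functor.map_zero, comp_zero]
  obtain ⟨y, hy⟩ := exact₃ h x h0
  exact ⟨y, hy.symm⟩

/-- If `π_{n+1} E → π_{n+1} (E / w)` is surjective then `w` is injective on `π_n E`. -/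
lemma inj_of_surjective {E E' C : T} {w : E ⟶ E'} {q : E' ⟶ C} {d : C ⟶ E⟦(1 : ℤ)⟧}
    (h : Triangle.mk w q d ∈ distTriang T) {n : ℤ}
    (hq : ∀ y : Sph T (n + 1) ⟶ C, ∃ z : Sph T (n + 1) ⟶ E', z ≫ q = y)
    (x : Sph T n ⟶ E) (hx : x ≫ w = 0) : x = 0 := by
  let a := ((shiftFunctorAdd' T n 1 (n + 1) rfl).app (𝟙_ T))
  have h1 : (a.hom ≫ x⟦(1 : ℤ)⟧') ≫ w⟦(1 : ℤ)⟧' = 0 := by
    rw [Category.assoc, ← Functor.map_comp, hx, Functor.map_zero, comp_zero]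
  obtain ⟨g, hg⟩ := exact₁ h (a.hom ≫ x⟦(1 : ℤ)⟧') h1
  obtain ⟨z, hz⟩ := hq g
  rw [← hz, Category.assoc, zero₂₃ h, comp_zero] at hg
  apply (shiftFunctor T (1 : ℤ)).map_injective
  rw [Functor.map_zero]
  exact (cancel_epi a.hom).1 (by rw [hg, comp_zero])

/-- Multiplication by `p` is injective on the odd homotopy. -/
def OddInj (p : ℤ) (X : T) : Prop := ∀ n : ℤ, Odd n → ∀ x : Sph T n ⟶ X, p • x = 0 → x = 0

theorem OddInj.of_iso {p : ℤ} {X Y : T} (e : X ≅ Y) (hX : OddInj p X) : OddInj p Y := by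
  intro n hn x hx
  have h1 : p • (x ≫ e.inv) = 0 := by rw [← Preadditive.zsmul_comp, hx, zero_comp]
  rw [← cancel_mono e.inv, hX n hn _ h1, zero_comp]

end base

section step

variable {T : Type u} [Category.{v} T] [Preadditive T] [HasZeroObject T] [HasShift T ℤ]
  [∀ n : ℤ, (shiftFunctor T n).Additive] [Pretriangulated T]
  [MonoidalCategory T] [SymmetricCategory T] [TensorTriangulated T]
  {P : T} [MonObj P] [IsCommMonObj P] {N : T}
variable {K : T} (F : LocFunctor K) (M : ModStr P N) {v : ℕ → (𝟙_ T ⟶ P)}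

/-- The induction step of theorem E1 when `v_i` is injective on the odd homotopy. -/
theorem e1_step0 {h i : ℕ} (hi : i < h) (hinv : InvRel P v i)
    (hus : ∀ n, US (Sph T n) (F.L.mapEnd (N ⊗ P) (endL N P ((ModStr.self P).sm (v i)))))
    (hP : ∀ n : ℤ, Odd n → ∀ x : Sph T n ⟶ N ⊗ P,
      x ≫ (endL N P ((ModStr.self P).sm (v i)) : N ⊗ P ⟶ N ⊗ P) = 0 → x = 0)
    (hQ : ∀ j, E1C F v h (M.tensorRight (Qc P v i j))) :
    E1C F v h (M.tensorRight P) := by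
  set w : End (N ⊗ P) := endL N P ((ModStr.self P).sm (v i)) with hw
  have hd := fun j => dist_N (N := N) v i j
  have hLd := fun j => dist_LN F (N := N) v i j
  simp only [← hw] at hd hLd
  have hodd : OddZero (F.L.obj (N ⊗ P)) := key_oddZero hus hLd (hQ 1).odd
  have hwB : (M.tens (ModStr.self P)).sm (scR P (v i)) = w :=
    ModStr.tens_smul_right _ _ _
  have hwBL : (F.mod (M.tens (ModStr.self P))).sm (scR P (v i)) = F.L.mapEnd (N ⊗ P) w := by
    rw [F.mod_sm, hwB]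
  refine ⟨hodd, fun n hn => ?_⟩
  have hcq : ∀ (j : ℕ) (a : 𝟙_ T ⟶ P), (M.tensorRight P).smul a ≫
      (N ◁ cofπ (((ModStr.self P).sm (v i)) ^ j : End P)) =
      (N ◁ cofπ (((ModStr.self P).sm (v i)) ^ j : End P)) ≫
        (M.tensorRight (Qc P v i j)).smul a := by
    intro j a
    rw [ModStr.tensorRight_smul, ModStr.tensorRight_smul]
    exact (whisker_exchange _ _).symm
  have hinj : ∀ x : Sph T n ⟶ F.L.obj (N ⊗ P), x ≫ (F.L.mapEnd (N ⊗ P) w) = 0 → x = 0 :=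
    fun x hx => key_injective hLd (hQ 1).odd hn x hx
  refine CompCond.of_quotients
    (actB (M.tensorRight P) (M.tens (ModStr.self P)) (tensB_smul M) (scR P (v i)) (Sph T n))
    (actB (F.mod (M.tensorRight P)) (F.mod (M.tens (ModStr.self P))) (tensB_smul_loc F M)
      (scR P (v i)) (Sph T n))
    (fun j => HM (M.tensorRight (Qc P v i j)).smr (Sph T n))
    (fun j => HM (F.mod (M.tensorRight (Qc P v i j))).smr (Sph T n))
    (fun j => F.homMap (M.tensorRight (Qc P v i j)) (Sph T n))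
    (fun j => (hQ j).even n hn)
    (fun j => scMap _ (hcq j) _)
    (fun j => scMap _ (loc_compat F (hcq j)) _) ?_ ?_ ?_ ?_ ?_ ?_ ?_ ?_ ?_
  · intro j x
    apply HM.hom_ext
    change (x.hom ≫ N ◁ cofπ (((ModStr.self P).sm (v i)) ^ j : End P)) ≫ F.u _ =
      (x.hom ≫ F.u _) ≫ F.L.map (N ◁ cofπ (((ModStr.self P).sm (v i)) ^ j : End P))
    rw [Category.assoc, Category.assoc, F.u_naturality]
  · intro j y
    obtain ⟨x, hx⟩ := surjective_of_inj (hd j)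
      (pow_injective (hP (n - 1) (hn.sub_odd odd_one)) j) y.hom
    exact ⟨HM.of x, HM.hom_ext hx⟩
  · intro j y
    obtain ⟨x, hx⟩ := surjective_even (hLd j) hodd hn y.hom
    exact ⟨HM.of x, HM.hom_ext hx⟩
  · intro j x hx
    obtain ⟨y, hy⟩ := (eq_zero_iff_even (hd j) x.hom).1 hx
    refine ⟨HM.of y, HM.hom_ext ?_⟩
    rw [hom_actB_pow, hwB]
    exact hy
  · intro j x
    constructor
    · intro hx
      obtain ⟨y, hy⟩ := (eq_zero_iff_even (hLd j) x.hom).1 hx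
      refine ⟨HM.of y, HM.hom_ext ?_⟩
      rw [hom_actB_pow, hwBL]
      exact hy
    · rintro ⟨y, hy⟩
      refine (eq_zero_iff_even (hLd j) x.hom).2 ⟨y.hom, ?_⟩
      rw [← hy, hom_actB_pow, hwBL]
  · intro j x
    exact actB_pow_mem _ _ _ hi hinv _ j x
  · intro j x
    exact actB_pow_mem _ _ _ hi hinv _ j x
  · intro x hx
    apply HM.hom_ext
    refine (hus n).haus hinj x.hom fun j => ?_
    obtain ⟨y, hy⟩ := hx j
    refine ⟨y.hom, ?_⟩
    rw [← hy, hom_actB_pow, hwBL]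
  · intro e he
    obtain ⟨l, hl⟩ := (hus n).complete (fun k => (e k).hom) (fun k => by
      obtain ⟨a, ha⟩ := he k
      refine ⟨a.hom, ?_⟩
      rw [← hwBL, ← hom_actB_pow _ _ (tensB_smul_loc F M), ← ha]
      rfl)
    refine ⟨HM.of l, fun k => ?_⟩
    obtain ⟨a, ha⟩ := hl k
    refine ⟨HM.of a, HM.hom_ext ?_⟩
    rw [hom_actB_pow, hwBL]
    exact ha

/-- `RegC` for `N ⊗ P`. -/
theorem RegC_tensorRight {h i : ℕ} {M : ModStr P N} (hM : RegC v h i M) :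
    RegC v h i (M.tensorRight P) :=
  ⟨fun m => hM.odd (m + 1), fun m => hM.kill (m + 1), fun m => hM.reg (m + 1)⟩

omit [HasZeroObject T] [HasShift T ℤ] [∀ n : ℤ, (shiftFunctor T n).Additive] [Pretriangulated T]
  [TensorTriangulated T] in
theorem zsmul_tensor [MonoidalPreadditive T] {X Y Z W : T} (p : ℤ) (f : X ⟶ Y) (g : Z ⟶ W) :
    ((p • f) ⊗ₘ g) = p • (f ⊗ₘ g) := by
  rw [tensorHom_def, tensorHom_def, ← Preadditive.zsmul_comp]
  congr 1
  exact map_zsmul ((tensorRight Z).mapAddHom (X := X) (Y := Y)) p f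

omit [HasZeroObject T] [HasShift T ℤ] [∀ n : ℤ, (shiftFunctor T n).Additive] [Pretriangulated T]
  [TensorTriangulated T] in
theorem tensor_zsmul [MonoidalPreadditive T] {X Y Z W : T} (p : ℤ) (f : X ⟶ Y) (g : Z ⟶ W) :
    (f ⊗ₘ (p • g)) = p • (f ⊗ₘ g) := by
  rw [tensorHom_def, tensorHom_def, ← Preadditive.comp_zsmul]
  congr 1
  exact map_zsmul ((tensorLeft Y).mapAddHom (X := Z) (Y := W)) p g

/-- The invariance relation for `v_0 = p`. -/
theorem invRel_zero {p : ℤ} (h0 : v 0 = p • η[P]) : InvRel P v 0 := by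
  refine ⟨η[P ⊗ P], η[P ⊗ P], fun _ => 0, one_scMul _, ?_⟩
  rw [Finset.sum_range_zero, add_zero, one_scMul, h0]
  unfold scL scR
  rw [zsmul_tensor, tensor_zsmul]

end step

section stable

variable {T : Type u} [Category.{v} T] [Preadditive T] [HasZeroObject T]
    [HasShift T ℤ] [∀ n : ℤ, (shiftFunctor T n).Additive] [Pretriangulated T] [IsTriangulated T]
    [MonoidalCategory T] [SymmetricCategory T] [TensorTriangulated T] [MonoidalClosed T]
    [HasCoproducts.{0} T] [HasProducts.{0} T] [StableCat T]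

theorem zsmul_whiskerRight {X Y : T} (p : ℤ) (f : X ⟶ Y) (Z : T) : (p • f) ▷ Z = p • (f ▷ Z) :=
  map_zsmul ((tensorRight Z).mapAddHom (X := X) (Y := Y)) p f

theorem whiskerLeft_zsmul {X Y : T} (Z : T) (p : ℤ) (f : X ⟶ Y) : Z ◁ (p • f) = p • (Z ◁ f) :=
  map_zsmul ((tensorLeft Z).mapAddHom (X := X) (Y := Y)) p f

theorem OddInj.tensS {p : ℤ} {Z : T} (hZ : OddInj p Z) (m : ℤ) :
    OddInj p (Z ⊗ (stdEven T).S m) := by
  intro n hn x hx
  obtain ⟨g, hg⟩ := whiskerRight_surj ((stdEven T).S m)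
    ((sphTens (T := T) (n - 2 * m) m n (by ring)).hom ≫ x)
  have h1 : g = 0 := by
    refine hZ (n - 2 * m) (by
      obtain ⟨a, rfl⟩ := hn
      exact ⟨a - m, by ring⟩) g (whiskerRight_inj ((stdEven T).S m) ?_)
    rw [zsmul_whiskerRight, hg, ← Preadditive.comp_zsmul, hx, comp_zero,
      MonoidalPreadditive.zero_whiskerRight]
  rw [h1, MonoidalPreadditive.zero_whiskerRight] at hg
  rw [← cancel_epi (sphTens (T := T) (n - 2 * m) m n (by ring)).hom, ← hg, comp_zero]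

theorem OddInj.coprod {p : ℤ} {Z : T} {I : Type} {F : I → T} (hF : ∀ i, OddInj p (Z ⊗ F i)) :
    OddInj p (Z ⊗ ∐ F) := by
  intro n hn x hx
  obtain ⟨q, s, hs⟩ := exists_sum_pr Z F (isSphere_sph n) x
  rw [hs]
  refine Finset.sum_eq_zero fun i _ => ?_
  rw [hF i n hn (x ≫ Z ◁ q i) (by rw [← Preadditive.zsmul_comp, hx, zero_comp]), zero_comp]

open GD

variable (D : I.MUData T) {C : T} {i : 𝟙_ T ⟶ C} {p : ℕ} [Fact p.Prime] (hp : p ≠ 2)
  {δ : C ⟶ (𝟙_ T)⟦(1 : ℤ)⟧} (hC : Triangle.mk ((p : ℤ) • 𝟙 (𝟙_ T)) i δ ∈ distTriang T)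

include hp hC

/-- Every element of `π_{2w} (R^{⊗ (s+1)} ⊗ S/p)` lifts to `R^{⊗ (s+1)}`. -/
theorem exists_lift_X (s : ℕ) {n : ℤ} (hn : Even n) (y : Sph T n ⟶ Am D.R (s + 1) ⊗ C) :
    ∃ z : Sph T n ⟶ Am D.R (s + 1) ⊗ 𝟙_ T, z ≫ (Am D.R (s + 1) ◁ i) = y := by
  obtain ⟨w, rfl⟩ := hn
  let e : (stdEven T).S w ≅ Sph T (w + w) :=
    (stdEven T).sphIso (Iso.refl _) w ≪≫ eqToIso (by rw [two_mul])
  obtain ⟨-, a, -, -, ha⟩ := D.surj p hp s C i δ hC w (e.hom ≫ y)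
  refine ⟨e.inv ≫ a ≫ (ρ_ (Am D.R (s + 1))).inv, ?_⟩
  rw [← cancel_epi e.hom, ha]
  simp only [Category.assoc, Iso.hom_inv_id_assoc]

/-- `p` is injective on the odd homotopy of `R^{⊗ (s+1)}`. -/
theorem oddInj_X (s : ℕ) : OddInj (p : ℤ) (Am D.R (s + 1) ⊗ 𝟙_ T) := by
  intro n hn x hx
  refine inj_of_surjective (tens_dist (Am D.R (s + 1)) hC)
    (exists_lift_X D hp hC s hn.add_one) x ?_
  rw [whiskerLeft_zsmul, whiskerLeft_id, Preadditive.comp_zsmul, Category.comp_id, hx]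

theorem oddInj_NP (s : ℕ) : OddInj (p : ℤ) (Ns D (𝟙_ T) s ⊗ D.P) :=
  (OddInj.coprod fun m => (OddInj.coprod fun m' =>
    (oddInj_X D hp hC (s + 1)).tensS m').tensS m).of_iso (eN D (𝟙_ T) s).symm

omit [Fact p.Prime] hp hC in
theorem smul_vs_zero (p : ℕ) [Fact p.Prime] : (ModStr.self D.P).sm (D.vs p 0) = (p : ℤ) • 𝟙 D.P := by
  rw [(D.invData p 0).v0]
  have h4 := map_zsmul (ModStr.self D.P).smulHom (p : ℤ) η[D.P]
  refine h4.trans ?_
  congr 1
  exact ModStr.smul_one _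

/-- The odd vanishing for `N_s ⊗ P/p^j`. -/
theorem good_N0 {h : ℕ} (hh : 1 ≤ h) (s j : ℕ) :
    Good D.P (D.vs p) 1 (h - 1) (Ns D (𝟙_ T) s ⊗ Qc D.P (D.vs p) 0 j) := by
  have h1 := tensR_dist D.P (tensR_dist (stdEven T).PS (tens_dist (Am D.R (s + 1)) hC))
  have h2 : ((Am D.R (s + 1) ◁ ((p : ℤ) • 𝟙 (𝟙_ T))) ▷ (stdEven T).PS) ▷ D.P =
      (endL (Ns D (𝟙_ T) s) D.P ((ModStr.self D.P).sm (D.vs p 0)) :
        Ns D (𝟙_ T) s ⊗ D.P ⟶ Ns D (𝟙_ T) s ⊗ D.P) := by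
    rw [smul_vs_zero]
    change _ = Ns D (𝟙_ T) s ◁ ((p : ℤ) • 𝟙 D.P)
    rw [whiskerLeft_zsmul, whiskerLeft_zsmul, zsmul_whiskerRight, zsmul_whiskerRight]
    simp
  rw [h2] at h1
  refine Good.cofibre_pow (j := j) (h - 1) h1 (dist_N (N := Ns D (𝟙_ T) s) (D.vs p) 0 j) ?_
  exact (RegC_tensorRight (regC_MP D hp hC h s)).good (h - 1) (by omega)
    (fun j hj hjh => (D.invData p h).inv j hj hjh.le)

/-- **Theorem E1** for the integral modules `N_s`: the odd homotopy of `L N_s` vanishes and its even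
homotopy is the `I_h`-adic completion of `v_h⁻¹ π_* N_s`. -/
theorem e1C_MP0 {h : ℕ} (hh : 1 ≤ h) (Dk : KosData D.P (p : ℤ) h (D.vs p)) (F : LocFunctor Dk.K)
    (s : ℕ) : E1C F (D.vs p) h (MP D (𝟙_ T) s) := by
  have hv := D.invData p h
  apply E1C.of_tensorRight Dk
  refine e1_step0 F (MP D (𝟙_ T) s) (i := 0) hh (invRel_zero hv.v0) (fun n => ?_)
    (fun n hn x hx => ?_) (fun j => ?_)
  · have h1 := Dk.us (F.mod ((ModStr.self D.P).tensorLeft (Ns D (𝟙_ T) s))) hv (F.isLocal _) 0 hh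
      (Sph T n)
    rw [F.mod_sm] at h1
    have h2 : ((ModStr.self D.P).tensorLeft (Ns D (𝟙_ T) s)).sm (D.vs p 0) =
        endL (Ns D (𝟙_ T) s) D.P ((ModStr.self D.P).sm (D.vs p 0)) :=
      ModStr.tensorLeft_smul _ _ _
    rwa [h2] at h1
  · refine oddInj_NP D hp hC s n hn x ?_
    rw [smul_vs_zero] at hx
    change x ≫ (Ns D (𝟙_ T) s ◁ ((p : ℤ) • 𝟙 D.P)) = 0 at hx
    rwa [whiskerLeft_zsmul, whiskerLeft_id, Preadditive.comp_zsmul, Category.comp_id] at hx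
  · exact theoremE1 Dk F ((MP D (𝟙_ T) s).tensorRight (Qc D.P (D.vs p) 0 j)) hv hh
      (fun _ _ X f => compact_sum X (isSphere_sph _) f)
      (isNilpotent_step (MP D (𝟙_ T) s) (D.vs p) 0 (invRel_zero hv.v0)
        (fun k hk => absurd hk (Nat.not_lt_zero k)) j
        (cof_dist (((ModStr.self D.P).sm (D.vs p 0)) ^ j : End D.P)))
      (good_N0 D hp hC hh s j)

end stable

end Vale.Agent.P261.M
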