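import Vale.Agent.P261.H621.ELoc2

/-!
# P261 (second hand-in): the chromatic fracture squares

`E j` objects such that, on objects on which `p` is nilpotent, `E j`-acyclic means `K_i`-acyclic for
`1 ≤ i ≤ j` (`K_i` the Koszul object of height `i`).

* `thk_E_of_mod`: `L_{E_k} L_{K_{k+1}} N`, for a `P`-module `N`, is in the thick subcategory generated
  by the objects `X ⊗ Tl_i`, `1 ≤ i ≤ k`;
* `frac`: if each `L_{K_j} X`, `1 ≤ j ≤ m`, is in the thick subcategory generated by the `L_{K_j} N`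
  with `N` a `P`-module and `N ⊗ (gk (j-1) ⊗ Tl j)` of countable homotopy then `L_{E_j} X` has
  countable homotopy for all `j ≤ m`.
-/

open CategoryTheory MonoidalCategory Limits MonObj Pretriangulated

set_option linter.unusedSectionVars false

universe v u

namespace Vale.Agent.P261.M

open Vale.Agent.P251 Vale.Agent.P251.T Vale.Agent.P251.S Vale.Agent.P261.H621

variable {T : Type u} [Category.{v} T] [Preadditive T] [HasZeroObject T] [HasShift T ℤ]
  [∀ n : ℤ, (shiftFunctor T n).Additive] [Pretriangulated T]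
  [MonoidalCategory T] [SymmetricCategory T] [TensorTriangulated T] [MonoidalClosed T]
  [HasCoproducts.{0} T]

theorem thk_map_loc {E : T} (FE : LocFunctor E) {P P' : T → Prop}
    (hP : ∀ Z, P Z → Thk P' (FE.L.obj Z)) {Z : T} (h : Thk P Z) : Thk P' (FE.L.obj Z) := by
  induction h with
  | base h => exact hP _ h
  | zero h => exact Thk.zero (FE.L.map_isZero h)
  | up _ ih => exact Thk.of_iso ((FE.L.commShiftIso (1 : ℤ)).symm.app _) ih.up
  | down _ ih => exact Thk.of_iso ((FE.L.commShiftIso (-1 : ℤ)).symm.app _) ih.down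
  | ext Δ hΔ _ _ ih₁ ih₃ => exact Thk.mid (FE.map_dist hΔ) ih₁ ih₃
  | retract i r h _ ih =>
    exact Thk.retract (FE.L.map i) (FE.L.map r) (by
      rw [← FE.L.map_comp, h, CategoryTheory.Functor.map_id]) ih

theorem thk_bind {P P' : T → Prop} (hP : ∀ Z, P Z → Thk P' Z) {Z : T} (h : Thk P Z) :
    Thk P' Z := by
  induction h with
  | base h => exact hP _ h
  | zero h => exact Thk.zero h
  | up _ ih => exact ih.up
  | down _ ih => exact ih.down
  | ext Δ hΔ _ _ ih₁ ih₃ => exact Thk.ext Δ hΔ ih₁ ih₃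
  | retract i r h _ ih => exact Thk.retract i r h ih

theorem thk_acyclic {K : T} {P : T → Prop} (hP : ∀ Z, P Z → Acyclic K Z) {Z : T} (h : Thk P Z) :
    Acyclic K Z := by
  induction h with
  | base h => exact hP _ h
  | zero h => exact acyclic_of_isZero h
  | up _ ih => exact ih.shift 1
  | down _ ih => exact ih.shift (-1)
  | ext Δ hΔ _ _ ih₁ ih₃ => exact Acyclic.ext₂ hΔ ih₁ ih₃
  | retract i r h _ ih => exact ih.retract i r h

theorem pnil_map {p : ℤ} {X : T} (h : PNil p X) {K : T} (F : LocFunctor K) :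
    PNil p (F.L.obj X) := by
  obtain ⟨k, hk⟩ := h
  refine ⟨k, ?_⟩
  rw [← CategoryTheory.Functor.map_id, ← Functor.map_zsmul, hk, Functor.map_zero]

theorem ctH_of_isZero {X : T} (h : IsZero X) : CtH X := fun t => by
  have : Subsingleton ((𝟙_ T)⟦t⟧ ⟶ X) := ⟨fun a b => h.eq_of_tgt a b⟩
  infer_instance

theorem ctH_of_iso {X Y : T} (e : X ≅ Y) (h : CtH X) : CtH Y := fun t => by
  have := h t
  exact Function.Injective.countable (f := fun x : (𝟙_ T)⟦t⟧ ⟶ Y => x ≫ e.inv)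
    (fun x y hxy => (cancel_mono _).1 hxy)

variable {P : T} [MonObj P] [IsCommMonObj P] {p : ℤ} {v : ℕ → (𝟙_ T ⟶ P)} (D : KosFam P p v)

/-- the objects `X ⊗ Tl_i` with `1 ≤ i ≤ j` -/
def TlCls (j : ℕ) (Z : T) : Prop := ∃ (X : T) (i : ℕ), 1 ≤ i ∧ i ≤ j ∧ Nonempty (Z ≅ X ⊗ D.Tl i)

theorem TlCls.mono {j j' : ℕ} (h : j ≤ j') {Z : T} (hZ : TlCls D j Z) : TlCls D j' Z := by
  obtain ⟨X, i, h1, h2, e⟩ := hZ
  exact ⟨X, i, h1, h2.trans h, e⟩

theorem tlCls_acyclic {j : ℕ} (hv : InvData P p (j + 1) v) {Z : T} (hZ : TlCls D j Z) :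
    Acyclic (D.at_ (j + 1)).K Z := by
  obtain ⟨X, i, h1, h2, ⟨e⟩⟩ := hZ
  refine Acyclic.of_iso ?_ e.symm
  exact (D.at_ (j + 1)).tel_acyclic hv i (by omega) X (D.isTel i).tel

theorem thk_E_of_mod {N : T} (M : ModStr P N) {k : ℕ} (hv : InvData P p (k + 1) v)
    (hn : IsNilpotent (M.sm (v 0))) (F : LocFunctor (D.at_ (k + 1)).K) {E : T} (FE : LocFunctor E)
    (hE1 : ∀ W, Acyclic E W → ∀ j, 1 ≤ j → j < k + 1 → Acyclic (D.at_ j).K W)
    (hE2 : ∀ W, PNil p W → (∀ j, 1 ≤ j → j < k + 1 → Acyclic (D.at_ j).K W) → Acyclic E W) :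
    Thk (TlCls D k) (FE.L.obj (F.L.obj N)) := by
  have hn' := D.nil_loc M hn F
  refine D.descend (F.mod M) k (D.isZero_gk' (F.mod M) hv hn' (D.isIso_vh M hv F))
    (fun Z => Thk (TlCls D k) (FE.L.obj Z))
    (fun _ h => Thk.zero (FE.L.map_isZero h)) (fun h h1 h3 => Thk.mid (FE.map_dist h) h1 h3)
    (fun i r h hY => Thk.retract (FE.L.map i) (FE.L.map r) (by
      rw [← FE.L.map_comp, h, CategoryTheory.Functor.map_id]) hY) (fun j hj => ?_)
  rcases Nat.lt_or_ge j k with hjk | hjk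
  · -- local
    have hloc : IsLocal E (F.L.obj N ⊗ (D.gk j ⊗ D.Tl (j + 1))) := by
      intro W hW f
      refine D.eq_zero_of_acyclic ((F.mod M).tensorRight (D.gk j ⊗ D.Tl (j + 1))) hv.v0
        (isNilpotent_tensorRight _ _ _ hn') j ?_ (fun i h1 h2 => hE1 W hW i h1 (by omega)) f
      exact D.isIso_gk (F.mod M) hv hn' j (by omega)
    have := FE.isIso_u hloc
    refine Thk.of_iso (asIso (FE.u _)) (Thk.base ?_)
    exact ⟨F.L.obj N ⊗ D.gk j, j + 1, by omega, by omega, ⟨(α_ _ _ _).symm⟩⟩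
  · -- acyclic
    obtain rfl : j = k := le_antisymm hj hjk
    refine Thk.zero (FE.isZero_obj ?_)
    refine hE2 _ (((pnil_iff (F.mod M) hv.v0).2 hn').tensor_right _) fun i h1 h2 => ?_
    have h3 := D.acyclic_gk (KosFam.InvData.mono' hv (j := i) (by omega)) h1 j (by omega)
      (F.L.obj N)
    exact (h3.tensor_right (D.Tl (j + 1))).of_iso (α_ _ _ _)

/-- an `E'`-local object `X`, such that the cofibre of `X ⟶ L_E X` is `E'`-acyclic, is `E`-local -/
theorem isLocal_of_cof {E E' : T} (FE : LocFunctor E) {X : T} (hX : IsLocal E' X)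
    (h : ∀ (Z : T) (g : FE.L.obj X ⟶ Z) (d : Z ⟶ X⟦(1 : ℤ)⟧),
      Triangle.mk (FE.u X) g d ∈ distTriang T → Acyclic E' Z) : IsLocal E X := by
  obtain ⟨Z, g, d, hd⟩ := distinguished_cocone_triangle (FE.u X)
  have hZ := h Z g d hd
  have hd0 : d = 0 := hX.shift 1 hZ d
  obtain ⟨r, hr⟩ := Triangle.yoneda_exact₂ _ (inv_rot_of_distTriang _ hd) (𝟙 X) (by
    have h1 := hX (hZ.shift (-1)) (Triangle.mk (FE.u X) g d).invRotate.mor₁
    exact (Category.comp_id _).trans h1)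
  change FE.L.obj X ⟶ X at r
  exact (FE.isLocal X).retract (FE.u X) r hr.symm

/-- `E` has, on objects on which `p` is nilpotent, the acyclics of `K_1 ⊕ ⋯ ⊕ K_j`. -/
structure EHt (j : ℕ) (E : T) : Prop where
  acyclic_K (W : T) (h : Acyclic E W) (i : ℕ) (h1 : 1 ≤ i) (h2 : i ≤ j) : Acyclic (D.at_ i).K W
  acyclic (W : T) (hp : PNil p W) (h : ∀ i, 1 ≤ i → i ≤ j → Acyclic (D.at_ i).K W) : Acyclic E W

/-- **Countability of the homotopy of `L_{E_j} X`.** -/
theorem frac {m : ℕ} (hv : ∀ j, 1 ≤ j → j ≤ m → InvData P p j v) {X : T} (hX : PNil p X)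
    (F : ∀ j, 1 ≤ j → j ≤ m → LocFunctor (D.at_ j).K)
    (hEx : ∀ k < m, ∃ E : T, Nonempty (LocFunctor E) ∧ EHt D k E)
    (hN : ∀ k (hk : k + 1 ≤ m), Thk (fun Z => ∃ (N : T) (_ : ModStr P N), PNil p N ∧
      CtH (N ⊗ (D.gk k ⊗ D.Tl (k + 1))) ∧ Nonempty (Z ≅ (F (k + 1) (by omega) hk).L.obj N))
        ((F (k + 1) (by omega) hk).L.obj X)) :
    ∀ j ≤ m, ∀ (E : T) (FE : LocFunctor E), EHt D j E →
      CtH (FE.L.obj X) ∧ Thk (TlCls D j) (FE.L.obj X) := by
  intro j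
  induction j with
  | zero =>
    intro hj E FE hE
    have h0 : IsZero (FE.L.obj X) :=
      FE.isZero_obj (hE.acyclic X hX (fun i h1 h2 => absurd h1 (by omega)))
    exact ⟨ctH_of_isZero h0, Thk.zero h0⟩
  | succ k ih =>
    intro hk E FE hE
    obtain ⟨E', ⟨FE'⟩, hE'⟩ := hEx k (by omega)
    obtain ⟨ih1, ih2⟩ := ih (by omega) E' FE' hE'
    have hk1 : 1 ≤ k + 1 := by omega
    obtain ⟨FK, hFK⟩ : ∃ FK, FK = F (k + 1) hk1 hk := ⟨_, rfl⟩
    have hNk := hN k hk
    rw [← hFK] at hNk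
    have hvk := hv (k + 1) hk1 hk
    -- facts about the generators
    have hThkE : Thk (TlCls D k) (FE'.L.obj (FK.L.obj X)) := by
      refine thk_map_loc FE' ?_ hNk
      rintro Z ⟨N, M, hp, -, ⟨e⟩⟩
      exact Thk.of_iso (FE'.L.mapIso e.symm) (thk_E_of_mod D M hvk
        ((pnil_iff M hvk.v0).1 hp) FK FE'
        (fun W hW j h1 h2 => hE'.acyclic_K W hW j h1 (by omega))
        (fun W hW h => hE'.acyclic W hW (fun i h1 h2 => h i h1 (by omega))))
    have hThk : Thk (TlCls D (k + 1)) (FK.L.obj X) := by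
      refine thk_bind ?_ hNk
      rintro Z ⟨N, M, hp, -, ⟨e⟩⟩
      exact Thk.of_iso e.symm (D.thk_of_mod M hvk ((pnil_iff M hvk.v0).1 hp) _)
    have hKc : Kc FE' (FK.L.obj X) := by
      refine Kc.of_thk ?_ hNk
      rintro Z ⟨N, M, hp, hct, ⟨e⟩⟩
      exact Kc.of_iso e.symm (D.kc_of_mod M hvk ((pnil_iff M hvk.v0).1 hp) FK FE'
        (fun W hW j h1 h2 => hE'.acyclic_K W hW j h1 (by omega))
        (fun W hW h => hE'.acyclic W hW (fun i h1 h2 => h i h1 (by omega))) hct)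
    -- the map `L_E X ⟶ L_K X`
    have hlocK : IsLocal E (FK.L.obj X) := fun W hW f =>
      FK.isLocal X (hE.acyclic_K W hW (k + 1) hk1 le_rfl) f
    obtain ⟨a, ha⟩ : ∃ a, a = FE.desc hlocK (FK.u X) := ⟨_, rfl⟩
    obtain ⟨D0, g, d, hd⟩ := distinguished_cocone_triangle a
    obtain ⟨Z, gZ, dZ, hZ⟩ := distinguished_cocone_triangle (FE.u X)
    have hZE : Acyclic E Z := (keq_iff_acyclic hZ).1 (FE.keq X)
    have hpE : PNil p (FE.L.obj X) := pnil_map hX _
    have hpK : PNil p (FK.L.obj X) := pnil_map hX _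
    have hpZ : PNil p Z := PNil.cof hZ hX hpE
    have hpD : PNil p D0 := PNil.cof hd hpE hpK
    have huK : KEq (D.at_ (k + 1)).K (FE.u X) :=
      (keq_iff_acyclic hZ).2 (hE.acyclic_K Z hZE (k + 1) hk1 le_rfl)
    have huE : KEq E' (FE.u X) :=
      (keq_iff_acyclic hZ).2 (hE'.acyclic Z hpZ (fun i h1 h2 => hE.acyclic_K Z hZE i h1 (by omega)))
    have hisoE : IsIso (FE'.L.map (FE.u X)) := FE'.isIso_map huE
    have hDK : Acyclic (D.at_ (k + 1)).K D0 := by
      refine (keq_iff_acyclic hd).1 (KEq.of_comp_left huK ?_)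
      rw [ha, LocFunctor.u_desc]
      exact FK.keq X
    have hDE : IsLocal E D0 := IsLocal.ext₃ hd (FE.isLocal X) hlocK
    have hThkD : Thk (TlCls D k) (FE'.L.obj D0) :=
      Thk.cof (FE'.map_dist hd) (Thk.of_iso (@asIso _ _ _ _ _ hisoE) ih2) hThkE
    have hLDK : Acyclic (D.at_ (k + 1)).K (FE'.L.obj D0) :=
      thk_acyclic (fun Z hZ => tlCls_acyclic D hvk hZ) hThkD
    have hDloc : IsLocal E' D0 := by
      refine isLocal_of_cof FE' hDE fun Y gY dY hY => ?_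
      have hYE : Acyclic E' Y := (keq_iff_acyclic hY).1 (FE'.keq D0)
      have hpY : PNil p Y := PNil.cof hY hpD (pnil_map hpD _)
      refine hE.acyclic Y hpY fun i h1 h2 => ?_
      rcases Nat.lt_or_ge i (k + 1) with h3 | h3
      · exact hE'.acyclic_K Y hYE i h1 (by omega)
      · obtain rfl : i = k + 1 := le_antisymm h2 h3
        exact Acyclic.ext₃ hY hDK hLDK
    have hThkD' : Thk (TlCls D (k + 1)) D0 := by
      have := FE'.isIso_u hDloc
      exact Thk.of_iso (asIso (FE'.u D0)).symm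
        (hThkD.mono fun Z hZ => Thk.base (hZ.mono D (Nat.le_succ k)))
    have hKcE : Kc FE' (FE.L.obj X) :=
      Kc.ext (inv_rot_of_distTriang _ hd) ((Kc.of_isLocal hDloc).shift (-1)) hKc
    refine ⟨fun t => ?_, Thk.fib hd hThk hThkD'⟩
    have h1 := ctH_of_iso (@asIso _ _ _ _ _ hisoE) ih1 t
    exact (hKcE.countable_iff t).2 h1

end Vale.Agent.P261.M
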