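import Vale.Agent.P261.M.Frac
import Vale.Agent.P261.H621.Nil3
import Vale.Agent.P261.H681.CtNs
import Vale.Agent.P251.Z.FinalA

/-!
# P261 (second hand-in): the fracture squares for `S/p`

`D : MUData T`, `C = S/p`, `Kf` the Koszul objects of all heights.

* `exists_eHt`: objects with the acyclics of `K_1 ⊕ ⋯ ⊕ K_j` exist;
* `top_ctH`: if `p - 1` divides none of `1, …, m` and, on objects on which `p` is nilpotent, `E` has
  the acyclics of `K_1 ⊕ ⋯ ⊕ K_m` then `L_E (S/p)` has countable homotopy.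
-/

open CategoryTheory MonoidalCategory Limits MonObj Pretriangulated ZeroObject

set_option linter.unusedSectionVars false

universe v u

namespace Vale.Agent.P261.M

open Vale.Agent.P251.S Vale.Agent.P251.T Vale.Agent.P251.M Vale.Agent.P251.F Vale.Agent.P251
  Vale.Agent.P261.H621

section ex

variable {T : Type u} [Category.{v} T] [Preadditive T] [HasZeroObject T] [HasShift T ℤ]
  [∀ n : ℤ, (shiftFunctor T n).Additive] [Pretriangulated T]
  [MonoidalCategory T] [SymmetricCategory T] [TensorTriangulated T] [MonoidalClosed T]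
  [HasCoproducts.{0} T]

theorem acyclic_biprod [HasBinaryBiproducts T] (E K W : T) :
    Acyclic (E ⊞ K) W ↔ Acyclic E W ∧ Acyclic K W := by
  have := preservesBinaryBiproducts_of_preservesBiproducts (tensorRight W)
  have e : (E ⊞ K) ⊗ W ≅ (E ⊗ W) ⊞ (K ⊗ W) := (tensorRight W).mapBiprod E K
  unfold Acyclic
  rw [e.isZero_iff]
  constructor
  · intro h
    exact ⟨h.of_mono biprod.inl, h.of_mono biprod.inr⟩
  · rintro ⟨h1, h2⟩
    rw [IsZero.iff_id_eq_zero]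
    apply biprod.hom_ext' <;> [exact h1.eq_of_src _ _; exact h2.eq_of_src _ _]

variable {P : T} [MonObj P] {p : ℤ} {v : ℕ → (𝟙_ T ⟶ P)} (D : KosFam P p v)

theorem exists_eHt (k : ℕ) : ∃ E : T, EHt D k E := by
  suffices h : ∃ E : T, ∀ W, Acyclic E W ↔ ∀ i, 1 ≤ i → i ≤ k → Acyclic (D.at_ i).K W by
    obtain ⟨E, hE⟩ := h
    exact ⟨E, fun W h i h1 h2 => (hE W).1 h i h1 h2, fun W _ h => (hE W).2 h⟩
  induction k with
  | zero =>
    exact ⟨0, fun W => ⟨fun _ i h1 h2 => absurd h1 (by omega), fun _ =>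
      (tensorRight W).map_isZero (isZero_zero T)⟩⟩
  | succ k ih =>
    obtain ⟨E, hE⟩ := ih
    refine ⟨E ⊞ (D.at_ (k + 1)).K, fun W => ?_⟩
    rw [acyclic_biprod, hE W]
    constructor
    · rintro ⟨h1, h2⟩ i hi1 hi2
      rcases Nat.lt_or_ge i (k + 1) with h | h
      · exact h1 i hi1 (by omega)
      · obtain rfl : i = k + 1 := le_antisymm hi2 h
        exact h2
    · intro h
      exact ⟨fun i h1 h2 => h i h1 (by omega), h (k + 1) (by omega) le_rfl⟩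

end ex

variable {T : Type u} [Category.{v} T] [Preadditive T] [HasZeroObject T]
    [HasShift T ℤ] [∀ n : ℤ, (shiftFunctor T n).Additive] [Pretriangulated T] [IsTriangulated T]
    [MonoidalCategory T] [SymmetricCategory T] [TensorTriangulated T] [MonoidalClosed T]
    [HasCoproducts.{0} T] [HasProducts.{0} T] [StableCat T]

/-- `p` is nilpotent on `S/p` -/
theorem pnil_cof {p : ℤ} {C : T} {i : 𝟙_ T ⟶ C} {δ : C ⟶ (𝟙_ T)⟦(1 : ℤ)⟧}
    (hC : Triangle.mk (p • 𝟙 (𝟙_ T)) i δ ∈ distTriang T) : PNil p C := by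
  obtain ⟨x, hx⟩ := Triangle.yoneda_exact₃ _ hC (p • 𝟙 C) (by
    have h0 : (p • 𝟙 (𝟙_ T)) ≫ i = 0 := comp_distTriang_mor_zero₁₂ _ hC
    change i ≫ (p • 𝟙 C) = 0
    rw [Preadditive.comp_zsmul, Category.comp_id, ← Category.id_comp i, ← Preadditive.zsmul_comp,
      h0])
  change (𝟙_ T)⟦(1 : ℤ)⟧ ⟶ C at x
  replace hx : p • 𝟙 C = δ ≫ x := hx
  have h1 : p • δ = 0 := by
    have h2 : δ ≫ (p • 𝟙 (𝟙_ T))⟦(1 : ℤ)⟧' = 0 := comp_distTriang_mor_zero₃₁ _ hC
    rw [Functor.map_zsmul, CategoryTheory.Functor.map_id, Preadditive.comp_zsmul,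
      Category.comp_id] at h2
    exact h2
  refine ⟨2, ?_⟩
  rw [pow_two, mul_smul, hx, ← Preadditive.zsmul_comp, h1, zero_comp]

variable (D : I.MUData T) {p : ℕ} [hp : Fact p.Prime]
  {C : T} {i : 𝟙_ T ⟶ C} {δ : C ⟶ (𝟙_ T)⟦(1 : ℤ)⟧}
  (hC : Triangle.mk ((p : ℤ) • 𝟙 (𝟙_ T)) i δ ∈ distTriang T)

include hC

theorem pnil_Ns (s : ℕ) : PNil (p : ℤ) (GD.Ns D C s) := by
  have h1 : PNil (p : ℤ) (C ⊗ Am D.R (s + 1)) := (pnil_cof hC).tensor_right _
  have h2 : PNil (p : ℤ) (Am D.R (s + 1) ⊗ C) :=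
    PNil.retract (β_ _ _).hom (β_ _ _).inv (Iso.hom_inv_id _) h1
  exact h2.tensor_right _

/-- **The homotopy of `L_E (S/p)` is countable.** -/
theorem top_ctH [LocallySmall.{0} T] (hp2 : p ≠ 2) (U : UnitCof D.R) (hB : BCells U)
    (Kf : KosFam D.P (p : ℤ) (D.vs p)) {m : ℕ} (hd : ∀ j, 1 ≤ j → j ≤ m → ¬ (p - 1) ∣ j)
    {E : T} (FE : LocFunctor E) (hE : EHt Kf m E) :
    CtH (FE.L.obj (𝟙_ T ⊗ C)) ∧ Thk (TlCls Kf m) (FE.L.obj (𝟙_ T ⊗ C)) := by
  have F : ∀ j, LocFunctor (Kf.at_ j).K := fun j => (Z.nonempty_locFunctor' _).some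
  refine frac Kf (fun j _ _ => D.invData p j) ?_ (fun j _ _ => F j)
    (fun k _ => ?_) (fun k hk => ?_) m le_rfl E FE hE
  · exact PNil.retract (λ_ C).hom (λ_ C).inv (Iso.hom_inv_id _) (pnil_cof hC)
  · obtain ⟨E', hE'⟩ := exists_eHt Kf k
    exact ⟨E', Z.nonempty_locFunctor' E', hE'⟩
  · refine thk_bind ?_ (thk_LC D (Kf.at_ (k + 1)) (F (k + 1)) hp2 (by omega) hC
      (hd (k + 1) (by omega) hk) U hB)
    rintro Z ⟨s, rfl⟩
    exact Thk.base ⟨GD.Ns D C s, GD.MP D C s, pnil_Ns D hC s,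
      H681.ctH_Ns D hp2 hC Kf s k (k + 1), ⟨Iso.refl _⟩⟩

end Vale.Agent.P261.M
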