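import Vale.Agent.P251.S.GrE
import Vale.Agent.P261.M.CobWtM
import Vale.Agent.P261.M.E1Z

/-!
# P261: the cobar complex of `L_K S` as the limit of the tower `towerNm 0 p h w`

`GrOut0 D U p h F`: the comparison of the cobar complex of `L_K (- ⊗ 𝟙)` with the towers
`towerNm 0 p h w` (the integral analogue of `GrOut`), `grOut0` for the localization at the Koszul
object of height `h`.
-/

open CategoryTheory MonoidalCategory MonObj Limits Pretriangulated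

set_option linter.unusedSectionVars false

universe v u

namespace Vale.Agent.P261.M

open Vale.Agent.P251.S Vale.Agent.P251.T Vale.Agent.P251.M Vale.Agent.P251.M.EvenSpheres
open Vale.Agent.P251.F Vale.Agent.P251 Vale.Agent.P251.S.GD

variable {T : Type u} [Category.{v} T] [Preadditive T] [HasZeroObject T]
    [HasShift T ℤ] [∀ n : ℤ, (shiftFunctor T n).Additive] [Pretriangulated T] [IsTriangulated T]
    [MonoidalCategory T] [SymmetricCategory T] [TensorTriangulated T] [MonoidalClosed T]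
    [HasCoproducts.{0} T] [HasProducts.{0} T] [StableCat T]

variable (D : I.MUData T) {C : T} (i : 𝟙_ T ⟶ C)

section red

/-- The reduction `N_s(𝟙) ⟶ N_s(C)`. -/
noncomputable def redN (s : ℕ) : Ns D (𝟙_ T) s ⟶ Ns D C s :=
  (Am D.R (s + 1) ◁ i) ▷ (stdEven T).PS

theorem uN_redN (s : ℕ) : uN D (𝟙 (𝟙_ T)) s ≫ redN D i s = uN D i s := by
  unfold uN redN
  rw [← sharp_comp]
  congr 1
  rw [Category.assoc]
  congr 1
  unfold uX unitMap
  simp only [Category.assoc, Category.id_comp]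
  rw [← whisker_exchange, leftUnitor_inv_naturality_assoc]

theorem act_whiskerLeft (s : ℕ) : (MX D (𝟙_ T) s).act ≫ (Am D.R (s + 1) ◁ i) =
    (𝟙 (Am D.R (s + 1)) ⊗ₘ (Am D.R (s + 1) ◁ i)) ≫ (MX D C s).act := by
  rw [id_tensorHom]
  exact (ModStr.self (Am D.R (s + 1))).isLinear_whiskerLeft i

theorem smul_redN (s : ℕ) (a : 𝟙_ T ⟶ Am D.R (s + 1) ⊗ (stdEven T).PS) :
    (MN D (𝟙_ T) s).smul a ≫ redN D i s = redN D i s ≫ (MN D C s).smul a := by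
  have h1 := PM_linear (E := stdEven T) (MX D (𝟙_ T) s) (MX D C s) (𝟙 _) (Am D.R (s + 1) ◁ i)
    (act_whiskerLeft D i s)
  have h2 := smul_semilinear h1 a
  rw [id_whiskerRight, Category.comp_id] at h2
  exact h2

theorem rN_redN (s : ℕ) (z : Cob Laz s) : (rN D (𝟙_ T) s z : Ns D (𝟙_ T) s ⟶ _) ≫ redN D i s =
    redN D i s ≫ rN D C s z := by
  rw [rN_eq, rN_eq]
  exact smul_redN D i s _

end red

section compl

variable {i} {p : ℕ} [Fact p.Prime] (hp : p ≠ 2) {δ : C ⟶ (𝟙_ T)⟦(1 : ℤ)⟧}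
  (hC : Triangle.mk ((p : ℤ) • 𝟙 (𝟙_ T)) i δ ∈ distTriang T)

omit [Fact p.Prime] in
include hC in
/-- The triangle `N_s(𝟙) ⟶ N_s(𝟙) ⟶ N_s(C)`. -/
theorem exists_dist_redN (s : ℕ) : ∃ δ' : Ns D C s ⟶ (Ns D (𝟙_ T) s)⟦(1 : ℤ)⟧,
    Triangle.mk ((p : ℤ) • 𝟙 (Ns D (𝟙_ T) s)) (redN D i s) δ' ∈ distTriang T := by
  have h1 := tensR_dist (stdEven T).PS (tens_dist (Am D.R (s + 1)) hC)
  have h2 : (Am D.R (s + 1) ◁ ((p : ℤ) • 𝟙 (𝟙_ T))) ▷ (stdEven T).PS =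
      (p : ℤ) • 𝟙 (Ns D (𝟙_ T) s) := by
    rw [whiskerLeft_zsmul, zsmul_whiskerRight]
    simp
  rw [h2] at h1
  exact ⟨_, h1⟩

omit [Fact p.Prime] in
theorem p_smul_Fs (p s : ℕ) (f : Fs D (𝟙_ T) s) :
    ((p : Cob Laz s) • f).hom = (p : ℤ) • f.hom := by
  rw [Nat.cast_smul_eq_nsmul, ← natCast_zsmul]
  rfl

theorem p_mem_IC {h : ℕ} (hh : 1 ≤ h) (s : ℕ) : (p : Cob Laz s) ∈ IC p h s := by
  rw [CobCompl.IC_eq_span]
  refine Ideal.subset_span ⟨0, hh, ?_⟩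
  have h0 : Laz.v p 0 = (p : Laz) := vv_zero p _
  rw [h0, map_natCast]

include hp hC

/-- **`Hom(𝟙, L N_s(𝟙))` is the completion of `v_h⁻¹ Cob Laz s` at `I_h`.** -/
theorem cobCompl0 {h : ℕ} (hh : 1 ≤ h) {K : T} (F : LocFunctor K) (s : ℕ)
    (hE : E1C F (D.vs p) h (MP D (𝟙_ T) s)) : CobComplM 0 p h s (uL D F (𝟙 (𝟙_ T)) s) := by
  obtain ⟨δ', hd⟩ := exists_dist_redN D hC s
  refine CobComplM.of_compCond0 p h s (compCond D F s hE) (p_mem_IC hh s)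
    (HM.of (uN D (𝟙 (𝟙_ T)) s)) ?_ ?_ ?_
  · intro f
    obtain ⟨z, hz⟩ := exists_smul_uN D i hp hC s (f.hom ≫ redN D i s)
    have h1 : (f.hom - uN D (𝟙 (𝟙_ T)) s ≫ (rN D (𝟙_ T) s z : Ns D (𝟙_ T) s ⟶ _)) ≫
        redN D i s = 0 := by
      rw [Preadditive.sub_comp, Category.assoc, rN_redN, ← Category.assoc (uN D (𝟙 (𝟙_ T)) s),
        uN_redN, hz, sub_self]
    obtain ⟨y, hy⟩ := exact₂ hd _ h1
    refine ⟨z, HM.of y, HM.hom_ext ?_⟩
    have h2 : y ≫ ((p : ℤ) • 𝟙 (Ns D (𝟙_ T) s)) = (p : ℤ) • y := by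
      rw [Preadditive.comp_zsmul, Category.comp_id]
    rw [h2, sub_eq_iff_eq_add'] at hy
    rw [HM.hom_add, p_smul_Fs, hy]
    rfl
  · intro c f hc
    refine mem_span_of_smul_uN D i hp hC s c ?_
    have h1 : uN D (𝟙 (𝟙_ T)) s ≫ (rN D (𝟙_ T) s c : Ns D (𝟙_ T) s ⟶ _) = (p : ℤ) • f.hom := by
      rw [← p_smul_Fs, ← hc]
      rfl
    have h2 := congrArg (· ≫ redN D i s) h1
    rw [Category.assoc, rN_redN, ← Category.assoc, uN_redN] at h2
    rw [h2]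
    have h3 : (p : ℤ) • f.hom = f.hom ≫ ((p : ℤ) • 𝟙 (Ns D (𝟙_ T) s)) := by
      rw [Preadditive.comp_zsmul, Category.comp_id]
    rw [h3, Category.assoc, zero₁₂ hd, comp_zero]
  · intro f hf
    have h1 : (p : ℤ) • f.hom = 0 := by rw [← p_smul_Fs, hf]; rfl
    let z : (𝟙_ T) ≅ Sph T 0 := ((shiftFunctorZero T ℤ).app (𝟙_ T)).symm
    have h2 := injective_of_oddZero hd (oddZero_N D hp hC s) (n := 0) ⟨0, rfl⟩
      (z.inv ≫ f.hom) (by
        rw [Preadditive.comp_zsmul, Category.comp_id, ← Preadditive.comp_zsmul, h1, comp_zero])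
    apply HM.hom_ext
    rw [← cancel_epi z.inv, h2]
    exact comp_zero.symm

end compl

section main

variable (U : UnitCof D.R) {p : ℕ} [Fact p.Prime] {h : ℕ} {K : T} (F : LocFunctor K)
  (hc : ∀ s, CobComplM 0 p h s (uL D F (𝟙 (𝟙_ T)) s))

include hc

theorem exists_phi0 (s : ℕ) (w : ℤ) :
    ∃ φ : ((𝟙_ T)⟦2 * w⟧ ⟶ F.L.obj (U.cobar.Q (s + 1) (𝟙_ T) ⊗ 𝟙_ T)) ≃+
        (towerNm 0 p h w).lim s,
      ∀ x j, ((φ x).1 j).1 = (hc s).lam (j + 1) (iG D U (𝟙_ T) F s w x) :=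
  (hc s).exists_lim (wtProj D F s (𝟙 (𝟙_ T))) w (iG D U (𝟙_ T) F s w)
    (iG_injective D U (𝟙_ T) F s w) (iG_range D U (𝟙_ T) F s w)

/-- **The cobar complex of `L_K S` is the limit of the tower `towerNm 0 p h w`.** -/
noncomputable def cobModel0 (w : ℤ) :
    U.CobModel (𝟙_ T) (tensorRight (𝟙_ T) ⋙ F.L) (𝟙_ T) w (towerNm 0 p h w) where
  φ s := (exists_phi0 D U F hc s w).choose
  φ_d s x j := by
    apply Subtype.ext
    have h1 := (exists_phi0 D U F hc (s + 1) w).choose_spec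
      (x ≫ F.L.map (U.cobar.d (s + 1) (𝟙_ T) ▷ (𝟙_ T))) j
    refine h1.trans ?_
    have h2 := (exists_phi0 D U F hc s w).choose_spec x j
    change _ = Cob.d s (((exists_phi0 D U F hc s w).choose x).1 j).1
    rw [h2, iG_d, map_sum, Cob.d_apply]
    refine Finset.sum_congr rfl fun k _ => ?_
    rw [map_zsmul]
    congr 1
    exact CobComplM.lam_map _ _ (mapE_smul D (𝟙_ T) F _) (mapE_uL D F _ (𝟙 (𝟙_ T))) _ _

end main

/-- The comparison of the cobar complex of `L_K (- ⊗ 𝟙)` with the towers `towerNm 0 p h w`. -/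
structure GrOut0 (U : UnitCof D.R) (p h : ℕ) [Fact p.Prime] {K : T} (F : LocFunctor K) where
  odd : ∀ (s : ℕ) (t : ℤ), Odd t →
    ∀ x : (𝟙_ T)⟦t⟧ ⟶ (tensorRight (𝟙_ T) ⋙ F.L).obj (U.cobar.Q (s + 1) (𝟙_ T)), x = 0
  /-- the identification -/
  model : ∀ w : ℤ, U.CobModel (𝟙_ T) (tensorRight (𝟙_ T) ⋙ F.L) (𝟙_ T) w (towerNm 0 p h w)

/-- The comparison for the localization at the Koszul object of height `h`. -/
noncomputable def grOut0 (U : UnitCof D.R) {p h : ℕ} [Fact p.Prime] (hp : p ≠ 2)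
    (hh : 1 ≤ h) {C : T} {i : 𝟙_ T ⟶ C} {δ : C ⟶ (𝟙_ T)⟦(1 : ℤ)⟧}
    (hC : Triangle.mk ((p : ℤ) • 𝟙 (𝟙_ T)) i δ ∈ distTriang T)
    (Dk : KosData D.P (p : ℤ) h (D.vs p)) (F : LocFunctor Dk.K) : GrOut0 D U p h F where
  odd _ t ht x := GD.odd_zero D U F (e1C_MP0 D hp hC hh Dk F _) t ht x
  model w := cobModel0 D U F (fun s => cobCompl0 D hp hC hh F s (e1C_MP0 D hp hC hh Dk F s)) w

end Vale.Agent.P261.M
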