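import Vale.Agent.P261.TopMain
import Vale.Agent.P261.M.GrZ
import Vale.Agent.P261.M.Bock
import Vale.Agent.P261.H36.HomotN

/-!
# P261: the homotopy of `L_{K(h)} S` in the sparse range

`D : MUData T`, `C = S/p`, `F` the localization at the Koszul object of height `h`, `p` odd,
`p - 1` does not divide `h`.

* `cplZ_sparse`, `cplZ_conv`: the couple of the tower `L (J^s)` is sparse and converges;
* `topZ_kill`: if `h ^ 2 < 2 (p - 1)`, `t + s = 2 (p - 1) c` with `s ≤ h ^ 2` and `c ≠ 0` then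
  `p ^ (1 + v_p(c))` kills `π_t (L S)`.
-/

open CategoryTheory MonoidalCategory Limits Pretriangulated MonObj

set_option linter.unusedSectionVars false

universe v u

namespace Vale.Agent.P261.M

open Vale.Agent.P251.S Vale.Agent.P251.T Vale.Agent.P251.M Vale.Agent.P251.F Vale.Agent.P251
open Vale.Agent.P261 Vale.Agent.P261.H273

variable {T : Type u} [Category.{v} T] [Preadditive T] [HasZeroObject T]
    [HasShift T ℤ] [∀ n : ℤ, (shiftFunctor T n).Additive] [Pretriangulated T] [IsTriangulated T]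
    [MonoidalCategory T] [SymmetricCategory T] [TensorTriangulated T] [MonoidalClosed T]
    [HasCoproducts.{0} T] [HasProducts.{0} T] [StableCat T]

section nilp

/-- `p ^ 2 = 0` on `S/p`. -/
theorem sq_zsmul_cof {X C : T} {p : ℤ} {i : X ⟶ C} {δ : C ⟶ X⟦(1 : ℤ)⟧}
    (hC : Triangle.mk (p • 𝟙 X) i δ ∈ distTriang T) : (p ^ 2) • 𝟙 C = 0 := by
  have h1 : (p • 𝟙 C) ≫ δ = 0 := by
    have h2 := zero₃₁ hC
    rw [Functor.map_zsmul, CategoryTheory.Functor.map_id, Preadditive.comp_zsmul,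
      Category.comp_id] at h2
    rw [Preadditive.zsmul_comp, Category.id_comp, h2]
  obtain ⟨y, hy⟩ := exact₃ hC _ h1
  have h3 : i ≫ (p • 𝟙 C) = 0 := by
    have h2 := zero₁₂ hC
    rw [Preadditive.zsmul_comp, Category.id_comp] at h2
    rw [Preadditive.comp_zsmul, Category.comp_id, h2]
  have h4 : (p ^ 2) • 𝟙 C = (p • 𝟙 C) ≫ (p • 𝟙 C) := by
    rw [Preadditive.comp_zsmul, Category.comp_id, smul_smul, pow_two]
  rw [h4]
  nth_rewrite 1 [hy]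
  rw [Category.assoc, h3, comp_zero]

theorem sq_zsmul_K {P : T} [MonObj P] {p : ℤ} {h : ℕ} {v : ℕ → (𝟙_ T ⟶ P)}
    (Dk : KosData P p h v) (hh : 1 ≤ h) : (p ^ 2) • 𝟙 Dk.K = 0 := by
  have h1 : ∀ i, 1 ≤ i → (p ^ 2) • 𝟙 (Dk.kos i) = 0 := by
    intro i hi
    induction i, hi using Nat.le_induction with
    | base =>
      have h2 : (p ^ 2) • 𝟙 (𝟙_ T ⊗ Dk.Q 0) = 𝟙_ T ◁ ((p ^ 2) • 𝟙 (Dk.Q 0)) := by
        rw [whiskerLeft_zsmul, whiskerLeft_id]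
      change (p ^ 2) • 𝟙 (𝟙_ T ⊗ Dk.Q 0) = 0
      rw [h2, sq_zsmul_cof Dk.dist0]
      exact MonoidalPreadditive.whiskerLeft_zero
    | succ i _ ih =>
      have h2 : (p ^ 2) • 𝟙 (Dk.kos i ⊗ Dk.Q i) = ((p ^ 2) • 𝟙 (Dk.kos i)) ▷ Dk.Q i := by
        rw [zsmul_whiskerRight, id_whiskerRight]
      change (p ^ 2) • 𝟙 (Dk.kos i ⊗ Dk.Q i) = 0
      rw [h2, ih]
      exact MonoidalPreadditive.zero_whiskerRight
  have h2 : (p ^ 2) • 𝟙 (Dk.kos h ⊗ Dk.Tl) = ((p ^ 2) • 𝟙 (Dk.kos h)) ▷ Dk.Tl := by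
    rw [zsmul_whiskerRight, id_whiskerRight]
  change (p ^ 2) • 𝟙 (Dk.kos h ⊗ Dk.Tl) = 0
  rw [h2, h1 h hh]
  exact MonoidalPreadditive.zero_whiskerRight

end nilp

section red

variable {C : T} (i : 𝟙_ T ⟶ C) {K : T} (F : LocFunctor K)

/-- The reduction `L (X ⊗ 𝟙) ⟶ L (X ⊗ C)`. -/
noncomputable def redL : (tensorRight (𝟙_ T) ⋙ F.L) ⟶ (tensorRight C ⋙ F.L) where
  app X := F.L.map (X ◁ i)
  naturality X Y f := by
    change F.L.map (f ▷ 𝟙_ T) ≫ F.L.map (Y ◁ i) = F.L.map (X ◁ i) ≫ F.L.map (f ▷ C)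
    rw [← F.L.map_comp, ← F.L.map_comp, whisker_exchange]

/-- The triangle `L (X ⊗ 𝟙) ⟶ L (X ⊗ 𝟙) ⟶ L (X ⊗ C)`. -/
theorem exists_dist_redL {p : ℤ} {i : 𝟙_ T ⟶ C} {δ : C ⟶ (𝟙_ T)⟦(1 : ℤ)⟧}
    (hC : Triangle.mk (p • 𝟙 (𝟙_ T)) i δ ∈ distTriang T) (X : T) :
    ∃ δ' : F.L.obj (X ⊗ C) ⟶ (F.L.obj (X ⊗ 𝟙_ T))⟦(1 : ℤ)⟧,
      Triangle.mk (p • 𝟙 (F.L.obj (X ⊗ 𝟙_ T))) ((redL i F).app X) δ' ∈ distTriang T := by
  have h1 := F.L.map_distinguished _ (tens_dist X hC)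
  have h2 : F.L.map (X ◁ (p • 𝟙 (𝟙_ T))) = p • 𝟙 (F.L.obj (X ⊗ 𝟙_ T)) := by
    rw [whiskerLeft_zsmul, whiskerLeft_id, F.L.map_zsmul, F.L.map_id]
  refine ⟨F.L.map (tensδ X δ) ≫ (F.L.commShiftIso (1 : ℤ)).hom.app (X ⊗ 𝟙_ T), ?_⟩
  rw [← h2]
  exact h1

end red

variable (D : I.MUData T) {p h : ℕ} [hp : Fact p.Prime]
  {C : T} {i : 𝟙_ T ⟶ C} {δ : C ⟶ (𝟙_ T)⟦(1 : ℤ)⟧}
  (Dk : KosData D.P (p : ℤ) h (D.vs p)) (F : LocFunctor Dk.K)

section

variable (hp2 : p ≠ 2) (hh : 1 ≤ h)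
  (hC : Triangle.mk ((p : ℤ) • 𝟙 (𝟙_ T)) i δ ∈ distTriang T) (hd : ¬ (p - 1) ∣ h)

include hp2 hh hC

include hd in
/-- The integral `E_2`-term is sparse. -/
theorem cplZ_sparse (U : UnitCof D.R) :
    (cpl D U (𝟙_ T) F).Sparse (2 * ((p : ℤ) - 1)) (h * h) := by
  intro s n hsn
  have G1 := grOut D U hp2 hh hC Dk F
  have G0 := grOut0 D U hp2 hh hC Dk F
  rcases Int.even_or_odd (n + (s : ℤ)) with he | ho
  · obtain ⟨w, hw⟩ := he
    have hw' : n + (s : ℤ) = 2 * w := by rw [hw]; ring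
    have hsn' : ¬ (s ≤ h * h ∧ ((p : ℤ) - 1) ∣ w) := by
      rintro ⟨h1, h2⟩
      refine hsn ⟨h1, ?_⟩
      rw [hw']
      exact mul_dvd_mul_left 2 h2
    choose δ' hδ' using fun X => exists_dist_redL F hC X
    refine EZ_le_of_bd hw' (bd_of_modp (p := p) (redL i F) ?_ ?_ ?_ ?_ ?_)
    · intro s y
      refine surjective_of_inj (hδ' _) (fun x _ => ?_) y
      exact G0.odd s _ (Even.sub_odd (even_two_mul w) odd_one) x
    · intro s x hx
      obtain ⟨y, hy⟩ := exact₂ (hδ' _) x hx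
      refine ⟨y, ?_⟩
      rw [hy, Preadditive.comp_zsmul, natCast_zsmul]
      congr 1
      exact Category.comp_id _
    · intro s x hx
      refine inj_of_surjective (hδ' _) (n := 2 * w) (fun y => ?_) x ?_
      · exact ⟨0, by rw [zero_comp]; exact (G1.odd s _ (even_two_mul w).add_one y).symm⟩
      · rw [Preadditive.comp_zsmul, natCast_zsmul]
        refine Eq.trans ?_ hx
        congr 1
        exact Category.comp_id _
    · intro s
      exact dcomp_of_isLocal (F.isLocal _) (m := 2) (sq_zsmul_K Dk hh) _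
    · intro c hc
      exact bd_of_mem_B (G1.model w) c (lim_van hp2 hh hd w s hsn' ((G1.model w).mem_Z_iff s c |>.2 hc))
  · intro z _
    rw [UnitCof.E_eq_zero_of_odd G0.odd s n ho z]
    exact AddSubgroup.zero_mem _

include hd in
/-- Convergence. -/
theorem cplZ_conv (U : UnitCof D.R) : (cpl D U (𝟙_ T) F).Conv (h * h + 1) := by
  obtain ⟨c, hc⟩ := built_finEven_RPS D
  obtain ⟨b, hKF⟩ := Dk.built_finEven hc
  intro s hs n y
  refine (U.tow (𝟙_ T)).converge_coeff (𝟙_ T) F (U.whisker_tow_c _)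
    (Dk.built_isRMul (built_isRMul_RPS D.R _)) hKF
    (fun s n hn => UnitCof.E_eq_zero_of_odd (grOut0 D U hp2 hh hC Dk F).odd s n
      (Int.odd_iff.2 hn)) (h * h) ?_ s hs n y
  intro s hs n b hb
  exact cplZ_sparse D Dk F hp2 hh hC hd U (s + 1) n (fun h => by omega)
    ((Couple.mem_EZ _).2 hb)

include hd in
/-- **Bounded torsion.** -/
theorem topZ_kill (hH : ((h * h : ℕ) : ℤ) < 2 * ((p : ℤ) - 1)) (t c : ℤ) (s : ℕ)
    (hs : s ≤ h * h) (ht : t + s = 2 * ((p : ℤ) - 1) * c) (hc : c ≠ 0)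
    (x : (𝟙_ T)⟦t⟧ ⟶ F.L.obj (𝟙_ T ⊗ 𝟙_ T)) : ((p : ℤ) ^ (1 + padicValInt p c)) • x = 0 := by
  obtain ⟨U⟩ := exists_unitCof D.R
  obtain ⟨y, rfl⟩ := (eD0 D U (𝟙_ T) F t).surjective x
  have hp0 : (0 : ℤ) < (p : ℤ) - 1 := by
    have : (0 : ℤ) ≤ ((h * h : ℕ) : ℤ) := Nat.cast_nonneg _
    linarith
  have hw : ((p : ℤ) - 1) * c ≠ 0 := mul_ne_zero hp0.ne' hc
  have hv : padicValInt p (((p : ℤ) - 1) * c) = padicValInt p c := by
    rw [padicValInt.mul hp0.ne' hc]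
    have h1 : padicValInt p ((p : ℤ) - 1) = 0 := by
      refine padicValInt.eq_zero_of_not_dvd ?_
      intro h2
      have h3 := Int.le_of_dvd hp0 h2
      linarith
    rw [h1, zero_add]
  rw [← map_zsmul, smul_eq_zero_of (cplZ_conv D Dk F hp2 hh hC hd U) s _ ?_ ?_ y, map_zero]
  · intro s' hs'
    refine cplZ_sparse D Dk F hp2 hh hC hd U s' t ?_
    rintro ⟨h1, d, h2⟩
    have h3 : 2 * ((p : ℤ) - 1) * (d - c) = (s' : ℤ) - s := by
      rw [mul_sub, ← h2, ← ht]; ring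
    have h4 : (s' : ℤ) ≤ ((h * h : ℕ) : ℤ) := by exact_mod_cast h1
    have h5 : (s : ℤ) ≤ ((h * h : ℕ) : ℤ) := by exact_mod_cast hs
    have h6 : (s' : ℤ) ≠ s := by exact_mod_cast hs'
    have h7 : d - c ≠ 0 := by
      intro h8
      rw [h8, mul_zero] at h3
      omega
    have h8 : d - c ≤ -1 ∨ 1 ≤ d - c := by omega
    rcases h8 with h8 | h8
    · have := mul_le_mul_of_nonneg_left h8 (by positivity : (0 : ℤ) ≤ 2 * ((p : ℤ) - 1))
      have h9 : (0 : ℤ) ≤ s' := Nat.cast_nonneg _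
      linarith
    · have := mul_le_mul_of_nonneg_left h8 (by positivity : (0 : ℤ) ≤ 2 * ((p : ℤ) - 1))
      have h9 : (0 : ℤ) ≤ s := Nat.cast_nonneg _
      linarith
  · intro z hz
    have h1 : t + (s : ℤ) = 2 * (((p : ℤ) - 1) * c) := by rw [ht]; ring
    refine smul_mem_EB_of_model ((grOut0 D U hp2 hh hC Dk F).model _) h1 _ (fun x hx => ?_) z hz
    rw [← hv]
    exact H36.pow_smul_mem_B 0 p h hp2 (by omega) hw s x hx

end

end Vale.Agent.P261.M
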